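import Mathlib.Analysis.Complex.Basic
import Mathlib.Algebra.BigOperators.Field
import Mathlib.Tactic

/-!
# P284 (helper470), project D, module E1: Gram determinants of two vectors
-/

open scoped ComplexConjugate

noncomputable section

namespace Vale.Agent.P284.H470.D

section
variable {ι κ : Type} [Fintype ι] [Fintype κ] (V W : ι → ℂ) (c : ℂ)

/-- `|V|²` -/
def sq2 (V : ι → ℂ) : ℝ := ∑ α, ‖V α‖ ^ 2

/-- the Gram determinant `|V|² |W|² - |<W, V>|²` -/
def gm (V W : ι → ℂ) : ℝ := sq2 V * sq2 W - ‖∑ α, W α * conj (V α)‖ ^ 2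

theorem sq2_nonneg : 0 ≤ sq2 V := Finset.sum_nonneg fun _ _ => by positivity

theorem nsq_sub (a b : ℂ) : ‖a - b‖ ^ 2 = ‖a‖ ^ 2 + ‖b‖ ^ 2 - 2 * (a * conj b).re := by
  rw [← Complex.normSq_eq_norm_sq, ← Complex.normSq_eq_norm_sq, ← Complex.normSq_eq_norm_sq,
    Complex.normSq_sub]

theorem sq2_sub : sq2 (fun α => W α - c * V α) =
    sq2 W + ‖c‖ ^ 2 * sq2 V - 2 * ((∑ α, W α * conj (V α)) * conj c).re := by
  unfold sq2
  rw [Finset.sum_mul, Complex.re_sum, Finset.mul_sum, Finset.mul_sum, ← Finset.sum_add_distrib,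
    ← Finset.sum_sub_distrib]
  refine Finset.sum_congr rfl fun α _ => ?_
  rw [nsq_sub, norm_mul, mul_pow, map_mul]
  congr 3
  ring

theorem inner_sub : ∑ α, (W α - c * V α) * conj (V α) =
    (∑ α, W α * conj (V α)) - c * (sq2 V : ℂ) := by
  unfold sq2
  push_cast
  rw [Finset.mul_sum, ← Finset.sum_sub_distrib]
  refine Finset.sum_congr rfl fun α _ => ?_
  have : V α * conj (V α) = ((‖V α‖ : ℝ) : ℂ) ^ 2 := by
    rw [Complex.mul_conj, Complex.normSq_eq_norm_sq]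
    push_cast
    rfl
  rw [← this]
  ring

theorem gm_shift : gm V (fun α => W α - c * V α) = gm V W := by
  unfold gm
  rw [sq2_sub, inner_sub, nsq_sub, norm_mul, mul_pow, map_mul, Complex.conj_ofReal]
  have h1 : ‖((sq2 V : ℝ) : ℂ)‖ ^ 2 = sq2 V ^ 2 := by
    rw [Complex.norm_real, Real.norm_eq_abs, sq_abs]
  have h2 : ((∑ α, W α * conj (V α)) * (conj c * ((sq2 V : ℝ) : ℂ))).re =
      ((∑ α, W α * conj (V α)) * conj c).re * sq2 V := by
    rw [← mul_assoc, Complex.re_mul_ofReal]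
  rw [h1, h2]
  ring

theorem gm_le : gm V W ≤ sq2 V * sq2 (fun α => W α - c * V α) := by
  rw [← gm_shift V W c]
  unfold gm
  have : 0 ≤ ‖∑ α, (W α - c * V α) * conj (V α)‖ ^ 2 := by positivity
  linarith

theorem gm_eq (hV : 0 < sq2 V) :
    ∃ c : ℂ, gm V W = sq2 V * sq2 (fun α => W α - c * V α) := by
  refine ⟨(∑ α, W α * conj (V α)) / (sq2 V : ℂ), ?_⟩
  rw [← gm_shift V W ((∑ α, W α * conj (V α)) / (sq2 V : ℂ))]
  have h0 : ((sq2 V : ℝ) : ℂ) ≠ 0 := by exact_mod_cast hV.ne'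
  conv_lhs => unfold gm
  rw [inner_sub, div_mul_cancel₀ _ h0, sub_self]
  simp

theorem gm_nonneg : 0 ≤ gm V W := by
  by_cases h : 0 < sq2 V
  · obtain ⟨c, hc⟩ := gm_eq V W h
    rw [hc]
    exact mul_nonneg h.le (sq2_nonneg _)
  · have h0 : sq2 V = 0 := le_antisymm (not_lt.1 h) (sq2_nonneg V)
    have h1 : ∀ α, V α = 0 := by
      intro α
      have h2 := (Finset.sum_eq_zero_iff_of_nonneg (fun α _ => by positivity)).1 h0 α
        (Finset.mem_univ α)
      simpa using h2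
    unfold gm
    rw [h0]
    simp [h1]

/-- a linear map of norm at most `√M` with `|T V|² ≥ τ |V|²` increases `gm / |V|⁴` by at most
`M / τ` -/
theorem gm_map {T : (ι → ℂ) → (κ → ℂ)} {M : ℝ} (hT : ∀ V W : ι → ℂ, ∀ c : ℂ,
      T (fun α => W α - c * V α) = fun β => T W β - c * T V β)
    (hM : ∀ U, sq2 (T U) ≤ M * sq2 U) (hV : 0 < sq2 V) (hTV : 0 < sq2 (T V)) :
    gm (T V) (T W) / sq2 (T V) ^ 2 ≤ M * sq2 V / sq2 (T V) * (gm V W / sq2 V ^ 2) := by
  obtain ⟨c, hc⟩ := gm_eq V W hV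
  have h1 := gm_le (T V) (T W) c
  have h2 := hM fun α => W α - c * V α
  rw [hT] at h2
  rw [hc]
  have h3 : gm (T V) (T W) / sq2 (T V) ^ 2 ≤
      sq2 (T V) * (M * sq2 (fun α => W α - c * V α)) / sq2 (T V) ^ 2 := by
    refine div_le_div_of_nonneg_right (h1.trans ?_) (by positivity)
    exact mul_le_mul_of_nonneg_left h2 hTV.le
  refine h3.trans (le_of_eq ?_)
  field_simp

end

end Vale.Agent.P284.H470.D
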