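import Vale.Agent.P272.K.Inv.Consts
import Vale.Agent.P272.K.C2.Wirt
import Vale.Agent.P284.H470.D.Gram

/-!
# P284 (helper470), project D, module E1: the complex Hessian of the logarithm of a weighted sum

`S = Σ_α exp (-θ_α) |g_α|²` with `g_α` holomorphic and `θ_α` real: the quadratic form of the complex
Hessian of `log S` in the direction `ξ` is `(|V|² |W|² - |<W, V>|²) / |V|⁴ - Σ_α p_α quad (θ_α)`, where
`V_α = exp (-θ_α/2) g_α`, `W_α = exp (-θ_α/2) (∂g_α - g_α ∂θ_α) (ξ)` and `p_α = |V_α|² / |V|²`.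
-/

open scoped Manifold ContDiff Topology ComplexOrder ComplexConjugate
open Filter Set MeasureTheory

noncomputable section

namespace Vale.Agent.P284.H470.D

open Vale.Agent.P272.K

section single
variable {m : ℕ} {g : Cm m → ℂ} {θ : Cm m → ℝ} {q : Cm m}

/-- covariant derivative -/
def cov (g : Cm m → ℂ) (θ : Cm m → ℝ) (j : Fin m) (y : Cm m) : ℂ :=
  dz j g y - g y * dz j (fun y => (θ y : ℂ)) y

/-- a weighted square -/
def tm (g : Cm m → ℂ) (θ : Cm m → ℝ) (y : Cm m) : ℝ := Real.exp (-θ y) * ‖g y‖ ^ 2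

theorem tm_cast (y : Cm m) :
    ((tm g θ y : ℝ) : ℂ) = ((Real.exp (-θ y) : ℝ) : ℂ) * (g y * cj (g y)) := by
  unfold tm
  push_cast
  congr 1
  rw [show cj (g y) = (starRingEnd ℂ) (g y) from rfl, Complex.mul_conj, Complex.normSq_eq_norm_sq]
  push_cast
  rfl

theorem dE (hθ : DifferentiableAt ℝ θ q) :
    DifferentiableAt ℝ (fun y => ((Real.exp (-θ y) : ℝ) : ℂ)) q :=
  C2.differentiableAt_ofReal (hθ.neg.exp)

theorem dz_E (hθ : DifferentiableAt ℝ θ q) (j : Fin m) :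
    dz j (fun y => ((Real.exp (-θ y) : ℝ) : ℂ)) q =
      -(((Real.exp (-θ q) : ℝ) : ℂ) * dz j (fun y => (θ y : ℂ)) q) := by
  have h := C2.dz_comp_real j (ψ := fun s => Real.exp (-s)) (ψ' := -Real.exp (-θ q)) (u := θ) (z := q)
    (by simpa using (hasDerivAt_neg (θ q)).exp) hθ
  rw [h]
  push_cast
  ring

theorem dzb_E (hθ : DifferentiableAt ℝ θ q) (j : Fin m) :
    dzb j (fun y => ((Real.exp (-θ y) : ℝ) : ℂ)) q =
      -(((Real.exp (-θ q) : ℝ) : ℂ) * dzb j (fun y => (θ y : ℂ)) q) := by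
  have h := C2.dzb_comp_real j (ψ := fun s => Real.exp (-s)) (ψ' := -Real.exp (-θ q)) (u := θ)
    (z := q) (by simpa using (hasDerivAt_neg (θ q)).exp) hθ
  rw [h]
  push_cast
  ring

theorem cj_dz_real (hθ : DifferentiableAt ℝ θ q) (j : Fin m) :
    cj (dz j (fun y => (θ y : ℂ)) q) = dzb j (fun y => (θ y : ℂ)) q :=
  (C2.dzb_real j hθ).symm

theorem dcj (hg : DifferentiableAt ℝ g q) : DifferentiableAt ℝ (fun y => cj (g y)) q :=
  C2.differentiableAt_conj hg

theorem tm_dz (hg : DifferentiableAt ℂ g q) (hθ : DifferentiableAt ℝ θ q) (j : Fin m) :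
    dz j (fun y => ((tm g θ y : ℝ) : ℂ)) q =
      ((Real.exp (-θ q) : ℝ) : ℂ) * (cov g θ j q * cj (g q)) := by
  have hgr : DifferentiableAt ℝ g q := hg.restrictScalars ℝ
  have h1 : (fun y => ((tm g θ y : ℝ) : ℂ)) =
      fun y => ((Real.exp (-θ y) : ℝ) : ℂ) * (g y * cj (g y)) := funext fun y => tm_cast y
  have h2 : DifferentiableAt ℝ (fun y => g y * cj (g y)) q := hgr.mul (dcj hgr)
  rw [h1, dz_mul (dE hθ) h2, dz_mul hgr (dcj hgr), dz_cj hgr, dzb_of_holo hg, dz_E hθ]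
  simp only [cj, map_zero, cov]
  ring

theorem tm_dzb (hg : DifferentiableAt ℂ g q) (hθ : DifferentiableAt ℝ θ q) (k : Fin m) :
    dzb k (fun y => ((tm g θ y : ℝ) : ℂ)) q =
      ((Real.exp (-θ q) : ℝ) : ℂ) * (g q * cj (cov g θ k q)) := by
  have hgr : DifferentiableAt ℝ g q := hg.restrictScalars ℝ
  have h1 : (fun y => ((tm g θ y : ℝ) : ℂ)) =
      fun y => ((Real.exp (-θ y) : ℝ) : ℂ) * (g y * cj (g y)) := funext fun y => tm_cast y
  have h2 : DifferentiableAt ℝ (fun y => g y * cj (g y)) q := hgr.mul (dcj hgr)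
  rw [h1, dzb_mul (dE hθ) h2, dzb_mul hgr (dcj hgr), dzb_cj hgr, dzb_of_holo hg, dzb_E hθ,
    ← cj_dz_real hθ]
  simp only [cj, cov, map_sub, map_mul]
  ring

theorem dz_holo {g : Cm m → ℂ} (hg : ContDiffAt ℂ ω g q) (j : Fin m) :
    ContDiffAt ℂ ω (dz j g) q := by
  have h1 : dz j g =ᶠ[𝓝 q] fun y => fderiv ℂ g y (Pi.single j 1) := by
    filter_upwards [hg.eventually (by simp)] with y hy
    exact dz_of_holo (hy.differentiableAt (by simp))
  refine ContDiffAt.congr_of_eventuallyEq ?_ h1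
  exact (hg.fderiv_right (m := ω) (by simp)).clm_apply contDiffAt_const

theorem tm_cHess (hg : ContDiffAt ℂ ω g q) (hθ : ContDiffAt ℝ 2 θ q) (j k : Fin m) :
    cHess (tm g θ) q j k = ((Real.exp (-θ q) : ℝ) : ℂ) *
      (cov g θ j q * cj (cov g θ k q) - ((‖g q‖ ^ 2 : ℝ) : ℂ) * cHess θ q j k) := by
  have hgc : DifferentiableAt ℂ g q := hg.differentiableAt (by simp)
  have hgr : DifferentiableAt ℝ g q := hgc.restrictScalars ℝ
  have hθd : DifferentiableAt ℝ θ q := hθ.differentiableAt (by norm_num)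
  have hg' : DifferentiableAt ℝ (dz k g) q :=
    ((dz_holo hg k).differentiableAt (by simp)).restrictScalars ℝ
  have hθ' : DifferentiableAt ℝ (dz k fun y => (θ y : ℂ)) q :=
    differentiableAt_dz (ofReal_contDiffAt hθ)
  have hθ'' : DifferentiableAt ℝ (dzb k fun y => (θ y : ℂ)) q :=
    differentiableAt_dzb (ofReal_contDiffAt hθ)
  have hev : dzb k (fun y => ((tm g θ y : ℝ) : ℂ)) =ᶠ[𝓝 q] fun y =>
      ((Real.exp (-θ y) : ℝ) : ℂ) *
        (g y * (cj (dz k g y) - cj (g y) * dzb k (fun y => (θ y : ℂ)) y)) := by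
    filter_upwards [hg.eventually (by simp), hθ.eventually (by simp)] with y h1 h2
    rw [tm_dzb (h1.differentiableAt (by simp)) (h2.differentiableAt (by norm_num)) k,
      ← cj_dz_real (h2.differentiableAt (by norm_num))]
    simp only [cj, cov, map_sub, map_mul]
  rw [cHess_apply, dz_congr hev]
  have hG : DifferentiableAt ℝ (fun y => cj (dz k g y) - cj (g y) * dzb k (fun y => (θ y : ℂ)) y) q :=
    (dcj hg').sub ((dcj hgr).mul hθ'')
  have hgG : DifferentiableAt ℝ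
      (fun y => g y * (cj (dz k g y) - cj (g y) * dzb k (fun y => (θ y : ℂ)) y)) q := hgr.mul hG
  have hcθ : DifferentiableAt ℝ (fun y => cj (g y) * dzb k (fun y => (θ y : ℂ)) y) q :=
    (dcj hgr).mul hθ''
  rw [dz_mul (dE hθd) hgG, dz_mul hgr hG, dz_sub (dcj hg') hcθ,
    dz_mul (dcj hgr) hθ'', dz_cj hg', dz_cj hgr, dzb_of_holo hgc,
    dzb_of_holo ((dz_holo hg k).differentiableAt (by simp)), dz_E hθd, ← cHess_apply]
  have h3 : (((‖g q‖ ^ 2 : ℝ)) : ℂ) = g q * cj (g q) := by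
    rw [show cj (g q) = (starRingEnd ℂ) (g q) from rfl, Complex.mul_conj,
      Complex.normSq_eq_norm_sq]
  rw [h3]
  simp only [cj, map_zero, cov, map_sub, map_mul]
  rw [show (starRingEnd ℂ) (dz k (fun y => (θ y : ℂ)) q) = dzb k (fun y => (θ y : ℂ)) q from
    cj_dz_real hθd k]
  ring

theorem tm_cd (hg : ContDiffAt ℂ ω g q) {r : WithTop ℕ∞} (hr : r ≤ ω) (hθ : ContDiffAt ℝ r θ q) :
    ContDiffAt ℝ r (tm g θ) q := by
  have h1 : ContDiffAt ℝ r g q := (hg.restrict_scalars ℝ).of_le hr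
  exact (hθ.neg.exp).mul (h1.norm_sq ℝ)

end single

/-! ### quadratic forms -/

section quad
variable {m : ℕ}

theorem quad_add (A B : Matrix (Fin m) (Fin m) ℂ) (ξ : Cm m) :
    quad (A + B) ξ = quad A ξ + quad B ξ := by
  simp only [quad, Matrix.add_apply, add_mul, Finset.sum_add_distrib]

theorem quad_sub (A B : Matrix (Fin m) (Fin m) ℂ) (ξ : Cm m) :
    quad (A - B) ξ = quad A ξ - quad B ξ := by
  simp only [quad, Matrix.sub_apply, sub_mul, Finset.sum_sub_distrib]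

theorem quad_csmul (c : ℂ) (A : Matrix (Fin m) (Fin m) ℂ) (ξ : Cm m) :
    quad (c • A) ξ = c * quad A ξ := by
  simp only [quad, Matrix.smul_apply, smul_eq_mul, Finset.mul_sum, mul_assoc]

theorem quad_sum {ι : Type} (s : Finset ι) (A : ι → Matrix (Fin m) (Fin m) ℂ) (ξ : Cm m) :
    quad (∑ α ∈ s, A α) ξ = ∑ α ∈ s, quad (A α) ξ := by
  classical
  induction s using Finset.induction_on with
  | empty => simp [quad]
  | insert a s ha ih => rw [Finset.sum_insert ha, Finset.sum_insert ha, quad_add, ih]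

theorem quad_rank (x y : Cm m) (ξ : Cm m) :
    quad (Matrix.of fun j k => x j * cj (y k)) ξ = (∑ j, x j * ξ j) * cj (∑ j, y j * ξ j) := by
  simp only [quad, Matrix.of_apply, cj, map_sum, map_mul]
  rw [Finset.sum_mul_sum]
  refine Finset.sum_congr rfl fun j _ => Finset.sum_congr rfl fun k _ => ?_
  ring

end quad

/-! ### families -/

section family
variable {ι : Type} [Fintype ι] {m : ℕ} {g : ι → Cm m → ℂ} {θ : ι → Cm m → ℝ} {q : Cm m}

/-- the weighted sum of squares -/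
def fam (g : ι → Cm m → ℂ) (θ : ι → Cm m → ℝ) (y : Cm m) : ℝ := ∑ α, tm (g α) (θ α) y

/-- `exp (-θ/2) g` -/
def VV (g : ι → Cm m → ℂ) (θ : ι → Cm m → ℝ) (q : Cm m) (α : ι) : ℂ :=
  ((Real.exp (-θ α q / 2) : ℝ) : ℂ) * g α q

/-- `exp (-θ/2) (∂g - g ∂θ) (ξ)` -/
def WW (g : ι → Cm m → ℂ) (θ : ι → Cm m → ℝ) (q ξ : Cm m) (α : ι) : ℂ :=
  ((Real.exp (-θ α q / 2) : ℝ) : ℂ) * ∑ j, cov (g α) (θ α) j q * ξ j

theorem half_mul (t : ℝ) :
    ((Real.exp (-t / 2) : ℝ) : ℂ) * ((Real.exp (-t / 2) : ℝ) : ℂ) = ((Real.exp (-t) : ℝ) : ℂ) := by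
  rw [← Complex.ofReal_mul, ← Real.exp_add]
  congr 2
  ring

omit [Fintype ι] in
theorem sq_VV (α : ι) : ‖VV g θ q α‖ ^ 2 = tm (g α) (θ α) q := by
  unfold VV tm
  rw [norm_mul, mul_pow, Complex.norm_real, Real.norm_eq_abs, sq_abs, sq, ← Real.exp_add]
  congr 2
  ring

theorem fam_eq : fam g θ q = sq2 (VV g θ q) :=
  Finset.sum_congr rfl fun α _ => (sq_VV α).symm

theorem cj_half (t : ℝ) : cj ((Real.exp (-t / 2) : ℝ) : ℂ) = ((Real.exp (-t / 2) : ℝ) : ℂ) :=
  Complex.conj_ofReal _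

/-- the quadratic form of the Hessian of the sum -/
theorem quad_fam (hg : ∀ α, ContDiffAt ℂ ω (g α) q) (hθ : ∀ α, ContDiffAt ℝ 2 (θ α) q) (ξ : Cm m) :
    quad (cHess (fam g θ) q) ξ = ((sq2 (WW g θ q ξ) : ℝ) : ℂ) -
      ∑ α, ((‖VV g θ q α‖ ^ 2 : ℝ) : ℂ) * quad (cHess (θ α) q) ξ := by
  have h1 : cHess (fam g θ) q = ∑ α, cHess (tm (g α) (θ α)) q := by
    unfold fam
    classical
    have h2 : ∀ s : Finset ι, cHess (fun y => ∑ α ∈ s, tm (g α) (θ α) y) q =
        ∑ α ∈ s, cHess (tm (g α) (θ α)) q := by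
      intro s
      induction s using Finset.induction_on with
      | empty => simpa using C2.cHess_const (n := m) (z := q) 0
      | insert a s ha ih =>
        rw [Finset.sum_insert ha, ← ih]
        have h3 : (fun y => ∑ α ∈ insert a s, tm (g α) (θ α) y) =
            fun y => tm (g a) (θ a) y + ∑ α ∈ s, tm (g α) (θ α) y := by
          funext y
          rw [Finset.sum_insert ha]
        rw [h3]
        exact C2.cHess_add (tm_cd (hg a) (by simp) (hθ a))
          (ContDiffAt.sum fun α _ => tm_cd (hg α) (by simp) (hθ α))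
    exact h2 Finset.univ
  have h4 : ∀ α, cHess (tm (g α) (θ α)) q = ((Real.exp (-θ α q) : ℝ) : ℂ) •
      ((Matrix.of fun j k => cov (g α) (θ α) j q * cj (cov (g α) (θ α) k q)) -
        ((‖g α q‖ ^ 2 : ℝ) : ℂ) • cHess (θ α) q) := by
    intro α
    ext j k
    rw [tm_cHess (hg α) (hθ α)]
    rfl
  rw [h1, quad_sum]
  simp only [sq2]
  push_cast
  rw [← Finset.sum_sub_distrib]
  refine Finset.sum_congr rfl fun α _ => ?_
  rw [h4, quad_csmul, quad_sub, quad_rank, quad_csmul]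
  have h5 : ∀ u : ℂ, ((‖u‖ : ℝ) : ℂ) ^ 2 = u * cj u := fun u => by
    rw [show cj u = (starRingEnd ℂ) u from rfl, Complex.mul_conj, Complex.normSq_eq_norm_sq]
    push_cast
    rfl
  rw [Complex.ofReal_pow, h5, h5, h5]
  unfold WW VV
  simp only [show ∀ a b : ℂ, cj (a * b) = cj a * cj b from fun a b => map_mul _ a b, cj_half]
  rw [← half_mul]
  ring

theorem fam_dz (hg : ∀ α, ContDiffAt ℂ ω (g α) q) (hθ : ∀ α, ContDiffAt ℝ 2 (θ α) q) (j : Fin m) :
    dz j (fun y => (fam g θ y : ℂ)) q =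
      ∑ α, ((Real.exp (-θ α q) : ℝ) : ℂ) * (cov (g α) (θ α) j q * cj (g α q)) := by
  have h1 : (fun y => (fam g θ y : ℂ)) = fun y => ∑ α, ((tm (g α) (θ α) y : ℝ) : ℂ) := by
    funext y
    unfold fam
    push_cast
    rfl
  rw [h1, dz_sum Finset.univ fun α _ => C2.differentiableAt_ofReal
    ((tm_cd (hg α) (by simp) (hθ α)).differentiableAt (by norm_num))]
  exact Finset.sum_congr rfl fun α _ => tm_dz ((hg α).differentiableAt (by simp))
    ((hθ α).differentiableAt (by norm_num)) j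

/-- **the Hessian of the logarithm of a weighted sum of squares** -/
theorem quad_log (hg : ∀ α, ContDiffAt ℂ ω (g α) q) (hθ : ∀ α, ContDiffAt ℝ 2 (θ α) q)
    (h0 : 0 < fam g θ q) (ξ : Cm m) :
    (quad (cHess (fun y => Real.log (fam g θ y)) q) ξ).re =
      gm (VV g θ q) (WW g θ q ξ) / fam g θ q ^ 2 -
        (∑ α, ‖VV g θ q α‖ ^ 2 * (quad (cHess (θ α) q) ξ).re) / fam g θ q := by
  have hc : ContDiffAt ℝ 2 (fam g θ) q := by
    unfold fam
    exact ContDiffAt.sum fun α _ => tm_cd (hg α) (by simp) (hθ α)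
  have h1 : cHess (fun y => Real.log (fam g θ y)) q =
      ((fam g θ q : ℂ))⁻¹ • cHess (fam g θ) q - ((fam g θ q : ℂ) ^ 2)⁻¹ •
        (Matrix.of fun j k => dz j (fun y => (fam g θ y : ℂ)) q *
          cj (dz k (fun y => (fam g θ y : ℂ)) q)) := by
    ext j k
    rw [C2.cHess_log hc h0, ← cj_dz_real (hc.differentiableAt (by norm_num))]
    rfl
  have h2 : ∑ j, dz j (fun y => (fam g θ y : ℂ)) q * ξ j =
      ∑ α, WW g θ q ξ α * (starRingEnd ℂ) (VV g θ q α) := by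
    simp only [fam_dz hg hθ, Finset.sum_mul]
    rw [Finset.sum_comm]
    refine Finset.sum_congr rfl fun α _ => ?_
    unfold WW VV
    rw [map_mul, Complex.conj_ofReal, Finset.mul_sum, Finset.sum_mul]
    refine Finset.sum_congr rfl fun j _ => ?_
    rw [← half_mul, cj]
    ring
  rw [h1, quad_sub, quad_csmul, quad_csmul, quad_rank, h2, quad_fam hg hθ]
  have h3 : ∀ u : ℂ, u * cj u = ((‖u‖ ^ 2 : ℝ) : ℂ) := fun u => by
    rw [show cj u = (starRingEnd ℂ) u from rfl, Complex.mul_conj, Complex.normSq_eq_norm_sq]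
  rw [h3]
  have h4 : (((fam g θ q : ℂ))⁻¹ * (((sq2 (WW g θ q ξ) : ℝ) : ℂ) -
      ∑ α, ((‖VV g θ q α‖ ^ 2 : ℝ) : ℂ) * quad (cHess (θ α) q) ξ)).re =
      (fam g θ q)⁻¹ * (sq2 (WW g θ q ξ) - ∑ α, ‖VV g θ q α‖ ^ 2 * (quad (cHess (θ α) q) ξ).re) := by
    rw [← Complex.ofReal_inv, Complex.re_ofReal_mul, Complex.sub_re, Complex.ofReal_re,
      Complex.re_sum]
    simp only [Complex.re_ofReal_mul]
  have h5 : (((fam g θ q : ℂ) ^ 2)⁻¹ *
      ((‖∑ α, WW g θ q ξ α * (starRingEnd ℂ) (VV g θ q α)‖ ^ 2 : ℝ) : ℂ)).re =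
      (fam g θ q ^ 2)⁻¹ * ‖∑ α, WW g θ q ξ α * (starRingEnd ℂ) (VV g θ q α)‖ ^ 2 := by
    rw [← Complex.ofReal_pow, ← Complex.ofReal_inv, ← Complex.ofReal_mul, Complex.ofReal_re]
  rw [Complex.sub_re, h4, h5]
  unfold gm
  rw [← fam_eq]
  field_simp
  ring

end family

end Vale.Agent.P284.H470.D
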