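import Vale.Agent.P284.H661.D.Defs
import Vale.Agent.P284.H470.D.Hess

/-!
# P284 (helper470), project D, module E1: algebra of `nS`, `nW`, `lamE`, `psiE`
-/

open scoped Manifold ContDiff Topology ComplexOrder ComplexConjugate
open Filter Set MeasureTheory

noncomputable section

namespace Vale.Agent.P284.H470.D

open Vale.Agent.P272.K Vale.Agent.P272.K.INT Vale.Agent.P284.H248 Vale.Agent.P284.H206.K
  Vale.Agent.P284.H661.D Vale.Agent.P284.H224.D

/-- `|σ ∧ F|² = Σ_{a<b} |σ_a F_b - σ_b F_a|²` -/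
def wq {m : ℕ} (σ F : Cm m) : ℝ := (∑ a, ∑ b, ‖σ a * F b - σ b * F a‖ ^ 2) / 2

/-! ### algebra -/

theorem nF_nonneg {m : ℕ} (σ : Cm m) : 0 ≤ nF σ := Finset.sum_nonneg fun _ _ => by positivity

theorem wq_nonneg {m : ℕ} (σ F : Cm m) : 0 ≤ wq σ F :=
  div_nonneg (Finset.sum_nonneg fun _ _ => Finset.sum_nonneg fun _ _ => by positivity) (by norm_num)

theorem wq_eq {m : ℕ} (σ F : Cm m) :
    wq σ F = nF σ * nF F - ‖∑ a, σ a * conj (F a)‖ ^ 2 := by
  have h1 : ∀ u : ℂ, ((‖u‖ ^ 2 : ℝ) : ℂ) = u * conj u := fun u => by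
    rw [Complex.mul_conj, Complex.normSq_eq_norm_sq]
  have h2 : ((wq σ F : ℝ) : ℂ) = ((nF σ * nF F - ‖∑ a, σ a * conj (F a)‖ ^ 2 : ℝ) : ℂ) := by
    unfold wq nF
    push_cast
    have h3 : ∀ a b, ((‖σ a * F b - σ b * F a‖ : ℝ) : ℂ) ^ 2 =
        (σ a * conj (σ a)) * (F b * conj (F b)) + (σ b * conj (σ b)) * (F a * conj (F a)) -
        (σ a * conj (F a)) * (F b * conj (σ b)) - (F a * conj (σ a)) * (σ b * conj (F b)) := by
      intro a b
      rw [← Complex.ofReal_pow, h1]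
      simp only [map_sub, map_mul]
      ring
    have h4 : ((‖∑ a, σ a * conj (F a)‖ : ℝ) : ℂ) ^ 2 =
        (∑ a, σ a * conj (F a)) * ∑ a, F a * conj (σ a) := by
      rw [← Complex.ofReal_pow, h1, map_sum]
      congr 1
      refine Finset.sum_congr rfl fun a _ => ?_
      simp [mul_comm]
    have h5 : ∀ τ : Cm m, ∑ a, ((‖τ a‖ : ℝ) : ℂ) ^ 2 = ∑ a, τ a * conj (τ a) := fun τ =>
      Finset.sum_congr rfl fun a _ => by rw [← Complex.ofReal_pow, h1]
    rw [h4, h5, h5]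
    simp only [h3, Finset.sum_sub_distrib, Finset.sum_add_distrib, ← Finset.mul_sum,
      ← Finset.sum_mul]
    ring
  exact_mod_cast h2

theorem wq_le {m : ℕ} (σ F : Cm m) : wq σ F ≤ nF σ * nF F := by
  rw [wq_eq]
  have : 0 ≤ ‖∑ a, σ a * conj (F a)‖ ^ 2 := by positivity
  linarith

/-! ### frames -/

section
variable {n R k : ℕ} {X : Type} [TopologicalSpace X] [ChartedSpace (Cm n) X]
  {L : LineBundle n X} (P : LPart L) (s : Fin (R + 1) → Sec L k)

/-- the components of the sections in the frame over `U i` -/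
def sv (s : Fin (R + 1) → Sec L k) (i : L.ι) (x : X) : Cm (R + 1) := fun a => (s a).f i x

theorem nS_eq {i : L.ι} {x : X} (hi : x ∈ L.U i) :
    nS P s x = nF (sv s i x) / HH P i x ^ k := by
  unfold nS nF sv
  rw [Finset.sum_div]
  exact Finset.sum_congr rfl fun a _ => GG_eq P (s a) hi

theorem nW_eq {i : L.ι} {x : X} (hi : x ∈ L.U i) (F : Cm (R + 1)) :
    nW P s F x = wq (sv s i x) F / HH P i x ^ k := by
  have hj := ixn_mem L x
  have h1 : ‖L.g (ixn L x) i x ^ k‖ ^ 2 ≠ 0 := by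
    have := norm_pos_iff.2 (pow_ne_zero k (L.ne_zero _ i x hj hi))
    positivity
  have h2 : HH P (ixn L x) x ^ k = ‖L.g (ixn L x) i x ^ k‖ ^ 2 * HH P i x ^ k := by
    rw [HH_change P hj hi, mul_pow, norm_pow]
    ring
  unfold nW wq sv
  rw [h2, div_div, Finset.sum_div, Finset.mul_sum]
  refine Finset.sum_congr rfl fun a _ => ?_
  rw [Finset.sum_div, Finset.mul_sum]
  refine Finset.sum_congr rfl fun b _ => ?_
  have h3 : (s a).f (ixn L x) x * F b - (s b).f (ixn L x) x * F a =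
      L.g (ixn L x) i x ^ k * ((s a).f i x * F b - (s b).f i x * F a) := by
    rw [(s a).change _ i x hj hi, (s b).change _ i x hj hi]
    ring
  rw [h3, norm_mul, mul_pow, mul_div_mul_left _ _ h1]
  ring

theorem nS_nonneg (x : X) : 0 ≤ nS P s x := Finset.sum_nonneg fun _ _ => GG_nonneg P _ x

theorem nW_nonneg (x : X) (F : Cm (R + 1)) : 0 ≤ nW P s F x := by
  rw [nW_eq P s (ixn_mem L x)]
  exact div_nonneg (wq_nonneg _ _) (pow_pos (HH_pos P (ixn_mem L x)) k).le

theorem nW_le (x : X) (F : Cm (R + 1)) : nW P s F x ≤ nS P s x * nF F := by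
  rw [nW_eq P s (ixn_mem L x), nS_eq P s (ixn_mem L x), div_mul_eq_mul_div]
  exact div_le_div_of_nonneg_right (wq_le _ _) (pow_pos (HH_pos P (ixn_mem L x)) k).le

variable {ε : ℝ} {F : Cm R → Cm (R + 1)}

/-- the function in the logarithm of `lamE` -/
def elam (ε : ℝ) (P : LPart L) (s : Fin (R + 1) → Sec L k) (F : Cm R → Cm (R + 1)) (x : X)
    (z : Cm R) : ℝ :=
  nW P s (F z) x + ε * nS P s x * nF (F z) + ε ^ 2 * (1 + nF (F z))

theorem elam_pos (hε : 0 < ε) (x : X) (z : Cm R) : 0 < elam ε P s F x z := by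
  have h1 := nW_nonneg P s x (F z)
  have h2 := nS_nonneg P s x
  have h3 := nF_nonneg (F z)
  unfold elam
  positivity

theorem epsi_pos (hε : 0 < ε) (x : X) : 0 < nS P s x + ε ^ 2 := by
  have h2 := nS_nonneg P s x
  positivity

theorem elam_le (hε : 0 < ε) (hε1 : ε ≤ 1) (x : X) (z : Cm R) :
    elam ε P s F x z ≤ 2 * (1 + nF (F z)) * (nS P s x + ε ^ 2) := by
  have h2 := nS_nonneg P s x
  have h3 := nF_nonneg (F z)
  have h4 := nW_le P s x (F z)
  unfold elam
  have h7 : ε * (nS P s x * nF (F z)) ≤ 1 * (nS P s x * nF (F z)) :=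
    mul_le_mul_of_nonneg_right hε1 (mul_nonneg h2 h3)
  have h8 : 0 ≤ ε ^ 2 * (1 + nF (F z)) := by positivity
  nlinarith

/-- **the upper bound** -/
theorem v_le (hε : 0 < ε) (hε1 : ε ≤ 1) (x : X) (z : Cm R) :
    lamE ε P s F x z - psiE ε P s x ≤ Real.log (2 * (1 + nF (F z))) := by
  have h3 := nF_nonneg (F z)
  have h5 := epsi_pos P s hε x
  have h9 := Real.log_le_log (elam_pos P s (F := F) hε x z) (elam_le P s hε hε1 x z)
  rw [Real.log_mul (by positivity) h5.ne'] at h9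
  show Real.log (elam ε P s F x z) - Real.log (nS P s x + ε ^ 2) ≤ _
  linarith

/-- `exp (lam - psi)` -/
theorem exp_v (hε : 0 < ε) (x : X) (z : Cm R) :
    Real.exp (-(lamE ε P s F x z - psiE ε P s x)) =
      (nS P s x + ε ^ 2) / elam ε P s F x z := by
  show Real.exp (-(Real.log (elam ε P s F x z) - Real.log (nS P s x + ε ^ 2))) = _
  rw [neg_sub, Real.exp_sub, Real.exp_log (epsi_pos P s hε x), Real.exp_log (elam_pos P s hε x z)]

end

end Vale.Agent.P284.H470.D
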