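import Vale.Agent.P284.H206.K.B6
import Vale.Agent.P284.H470.D.Hess

/-!
# P284 (helper470), project D, module E1: the curvature of the metric is bounded by a multiple of `W`
-/

open scoped Manifold ContDiff Topology ComplexOrder ComplexConjugate
open Filter Set MeasureTheory

noncomputable section

namespace Vale.Agent.P284.H470.D

open Vale.Agent.P272.K Vale.Agent.P272.K.INT Vale.Agent.P284.H248 Vale.Agent.P284.H206.K

/-- change of variables in a quadratic form -/
theorem quad_pull {m : ℕ} (J M : Matrix (Fin m) (Fin m) ℂ) (ξ : Cm m) :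
    quad (J.transpose * M * J.map (starRingEnd ℂ)) ξ = quad M (J.mulVec ξ) := by
  simp only [quad, Matrix.mul_apply, Matrix.transpose_apply, Matrix.map_apply, Matrix.mulVec,
    dotProduct, cj, map_sum, map_mul, Finset.sum_mul, Finset.mul_sum]
  -- both sides are sums over four indices
  calc ∑ i, ∑ j, ∑ b, ∑ a, J a i * M a b * (starRingEnd ℂ) (J b j) *
        (ξ i * (starRingEnd ℂ) (ξ j))
      = ∑ i, ∑ j, ∑ a, ∑ b, J a i * M a b * (starRingEnd ℂ) (J b j) *
        (ξ i * (starRingEnd ℂ) (ξ j)) :=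
        Finset.sum_congr rfl fun i _ => Finset.sum_congr rfl fun j _ => Finset.sum_comm
    _ = ∑ i, ∑ a, ∑ j, ∑ b, J a i * M a b * (starRingEnd ℂ) (J b j) *
        (ξ i * (starRingEnd ℂ) (ξ j)) := Finset.sum_congr rfl fun i _ => Finset.sum_comm
    _ = ∑ a, ∑ i, ∑ j, ∑ b, J a i * M a b * (starRingEnd ℂ) (J b j) *
        (ξ i * (starRingEnd ℂ) (ξ j)) := Finset.sum_comm
    _ = ∑ a, ∑ i, ∑ b, ∑ j, J a i * M a b * (starRingEnd ℂ) (J b j) *
        (ξ i * (starRingEnd ℂ) (ξ j)) :=
        Finset.sum_congr rfl fun a _ => Finset.sum_congr rfl fun i _ => Finset.sum_comm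
    _ = ∑ a, ∑ b, ∑ i, ∑ j, J a i * M a b * (starRingEnd ℂ) (J b j) *
        (ξ i * (starRingEnd ℂ) (ξ j)) := Finset.sum_congr rfl fun a _ => Finset.sum_comm
    _ = ∑ a, ∑ b, ∑ j, ∑ i, M a b * (J a i * ξ i * ((starRingEnd ℂ) (J b j) *
        (starRingEnd ℂ) (ξ j))) := by
        refine Finset.sum_congr rfl fun a _ => Finset.sum_congr rfl fun b _ => ?_
        rw [Finset.sum_comm]
        refine Finset.sum_congr rfl fun j _ => Finset.sum_congr rfl fun i _ => ?_
        ring

section
variable {n k : ℕ} {X : Type} [TopologicalSpace X] [ChartedSpace (Cm n) X]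
  {W : Chart n X → Cm n → Matrix (Fin n) (Fin n) ℂ} {L : LineBundle n X}

/-- the weight of the metric of `L^k` over `U i`, in the chart `e` -/
def th (P : LPart L) (k : ℕ) (i : L.ι) (e : Chart n X) (y : Cm n) : ℝ :=
  (k : ℝ) * Real.log (HH P i (e.symm y))

variable (P : LPart L)

theorem th_smooth {i : L.ι} {e : Chart n X} {x : X} (hx : At e x) (hi : x ∈ L.U i) :
    ContDiffAt ℝ ∞ (th P k i e) (e x) := contDiffAt_const.mul (logHH_smooth P hx hi)

theorem two_le_top : (2 : WithTop ℕ∞) ≤ ∞ := WithTop.coe_le_coe.2 le_top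

theorem cHess_th {i : L.ι} {e : Chart n X} {x : X} (hx : At e x) (hi : x ∈ L.U i) :
    cHess (th P k i e) (e x) =
      ((k : ℝ) : ℂ) • cHess (fun y => Real.log (HH P i (e.symm y))) (e x) :=
  C2.cHess_const_mul _ ((logHH_smooth P hx hi).of_le two_le_top)

theorem cHess_th_eq {i : L.ι} {e : Chart n X} {x : X} (hx : At e x) (hi : x ∈ L.U i) :
    cHess (th P k i e) (e x) = Th P k e (e x) := by
  rw [cHess_th P hx hi, Th_eq P hx hi]
  push_cast
  rfl

variable [IsManifold 𝓘(ℂ, Cm n) ω X]

/-- **the curvature is bounded** -/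
theorem exists_crv [CompactSpace X] (hW : IsKahler W) (k : ℕ) :
    ∃ B : ℝ, 0 < B ∧ ∀ (e : Chart n X) x, At e x → ∀ i, x ∈ L.U i → ∀ ξ : Cm n,
      |(quad (cHess (th P k i e) (e x)) ξ).re| ≤ B * (quad (W e (e x)) ξ).re := by
  have key : ∃ B : ℝ, 0 < B ∧ ∀ x ∈ (univ : Set X), ∀ (e : Chart n X), At e x → ∀ i, x ∈ L.U i →
      ∀ ξ : Cm n, |(quad (cHess (th P k i e) (e x)) ξ).re| ≤ B * (quad (W e (e x)) ξ).re := by
    refine isCompact_univ.induction_on (p := fun S => ∃ B : ℝ, 0 < B ∧ ∀ x ∈ S,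
      ∀ (e : Chart n X), At e x → ∀ i, x ∈ L.U i →
      ∀ ξ : Cm n, |(quad (cHess (th P k i e) (e x)) ξ).re| ≤ B * (quad (W e (e x)) ξ).re)
      ?_ ?_ ?_ ?_
    · exact ⟨1, one_pos, fun x hx => hx.elim⟩
    · rintro S T hST ⟨B, hB, h⟩
      exact ⟨B, hB, fun x hx => h x (hST hx)⟩
    · rintro S T ⟨B, hB, h⟩ ⟨B', hB', h'⟩
      refine ⟨max B B', lt_max_of_lt_left hB, ?_⟩
      rintro x (hx | hx) e he i hi ξ
      · exact (h x hx e he i hi ξ).trans (mul_le_mul_of_nonneg_right (le_max_left _ _)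
          (quad_nonneg (hW.posDef e x he).posSemidef ξ))
      · exact (h' x hx e he i hi ξ).trans (mul_le_mul_of_nonneg_right (le_max_right _ _)
          (quad_nonneg (hW.posDef e x he).posSemidef ξ))
    · intro x _
      obtain ⟨i₀, hi₀⟩ := L.cover x
      set c := chartAt (Cm n) x with hc
      have hAt : At c x := ⟨chart_mem_atlas _ x, mem_chart_source _ x⟩
      obtain ⟨r, hr, hball⟩ := Metric.nhds_basis_closedBall.mem_iff.1 (U_evn hAt hi₀)
      have hcont : ∀ a b, ContinuousOn (fun z => cHess (th P k i₀ c) z a b)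
          (Metric.closedBall (c x) r) := by
        intro a b z hz
        obtain ⟨h1, h2, h3⟩ := hball hz
        have h4 := th_smooth P (k := k) h2 h3
        rw [c.right_inv h1] at h4
        exact (INT.smooth_cHess h4 a b).continuousAt.continuousWithinAt
      have hWc : ∀ a b, ContinuousOn (fun z => W c z a b) (Metric.closedBall (c x) r) := by
        intro a b z hz
        obtain ⟨h1, h2, h3⟩ := hball hz
        have h4 := hW.smooth c _ h2 a b
        rw [c.right_inv h1] at h4
        exact h4.continuousAt.continuousWithinAt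
      have hWp : ∀ z ∈ Metric.closedBall (c x) r, (W c z).PosDef := by
        intro z hz
        obtain ⟨h1, h2, h3⟩ := hball hz
        have h4 := hW.posDef c _ h2
        rwa [c.right_inv h1] at h4
      obtain ⟨B₁, hB₁, h₁⟩ := exists_quad_lower (isCompact_closedBall (c x) r) (fun z => W c z)
        (fun z => cHess (th P k i₀ c) z) hWc hcont hWp
      obtain ⟨B₂, hB₂, h₂⟩ := exists_quad_lower (isCompact_closedBall (c x) r) (fun z => W c z)
        (fun z => (-1 : ℂ) • cHess (th P k i₀ c) z) hWc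
        (fun a b => (continuousOn_const (c := (-1 : ℂ))).mul (hcont a b)) hWp
      refine ⟨c.source ∩ c ⁻¹' Metric.closedBall (c x) r, ?_, max B₁ B₂,
        lt_max_of_lt_left hB₁, ?_⟩
      · refine mem_nhdsWithin_of_mem_nhds (inter_mem (c.open_source.mem_nhds hAt.2) ?_)
        exact (c.continuousAt hAt.2).preimage_mem_nhds (Metric.closedBall_mem_nhds _ hr)
      · rintro y ⟨hy1, hy2⟩ e hey i hiy ξ
        have hcy : At c y := ⟨hAt.1, hy1⟩
        obtain ⟨-, -, hy3⟩ := hball hy2
        rw [c.left_inv hy1] at hy3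
        have h3 : cHess (th P k i e) (e y) = (jacM e c y).transpose *
            cHess (th P k i₀ c) (c y) * (jacM e c y).map (starRingEnd ℂ) := by
          rw [cHess_th P hey hiy, cHess_HH P hey hiy hy3, ← cHess_th P hey hy3]
          exact cHess_change (u := fun x => (k : ℝ) * Real.log (HH P i₀ x)) hey hcy
            ((th_smooth P hcy hy3).of_le two_le_top)
        rw [h3, hW.change e c y hey hcy, quad_pull, quad_pull]
        set η := (jacM e c y).mulVec ξ
        have h4 := h₁ (c y) hy2 η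
        have h5 := h₂ (c y) hy2 η
        rw [quad_csmul] at h5
        have h6 : 0 ≤ (quad (W c (c y)) η).re := quad_nonneg (hW.posDef c y hcy).posSemidef η
        have h7 : B₁ * (quad (W c (c y)) η).re ≤ max B₁ B₂ * (quad (W c (c y)) η).re :=
          mul_le_mul_of_nonneg_right (le_max_left _ _) h6
        have h8 : B₂ * (quad (W c (c y)) η).re ≤ max B₁ B₂ * (quad (W c (c y)) η).re :=
          mul_le_mul_of_nonneg_right (le_max_right _ _) h6
        have h9 : ((-1 : ℂ) * quad (cHess (th P k i₀ c) (c y)) η).re =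
            -(quad (cHess (th P k i₀ c) (c y)) η).re := by simp
        rw [h9] at h5
        rw [abs_le]
        constructor <;> linarith
  obtain ⟨B, hB, h⟩ := key
  exact ⟨B, hB, fun e x he i hi ξ => h x (mem_univ x) e he i hi ξ⟩

/-- the matrix form -/
theorem exists_crv_psd [CompactSpace X] (hW : IsKahler W) (k : ℕ) :
    ∃ C₀ : ℝ, 0 < C₀ ∧ ∀ C : ℝ, C₀ ≤ C → ∀ (e : Chart n X) x, At e x →
      ((C : ℂ) • W e (e x) - Th P k e (e x)).PosSemidef ∧
      ((C : ℂ) • W e (e x) + Th P k e (e x)).PosSemidef := by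
  obtain ⟨B, hB, h⟩ := exists_crv P hW k
  refine ⟨B, hB, fun C hC e x hx => ?_⟩
  obtain ⟨i, hi⟩ := L.cover x
  rw [← cHess_th_eq P hx hi]
  have hH : (cHess (th P k i e) (e x)).IsHermitian :=
    C2.cHess_isHermitian ((th_smooth P hx hi).of_le two_le_top)
  have hWH : ((C : ℂ) • W e (e x)).IsHermitian := by
    have := (hW.posDef e x hx).isHermitian
    ext a b
    simp only [Matrix.conjTranspose_apply, Matrix.smul_apply, smul_eq_mul, star_mul',
      RCLike.star_def, Complex.conj_ofReal]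
    have h2 := this.apply a b
    simp only [RCLike.star_def] at h2
    rw [h2]
  have h3 : ∀ ξ : Cm n, |(quad (cHess (th P k i e) (e x)) ξ).re| ≤
      C * (quad (W e (e x)) ξ).re := fun ξ => (h e x hx i hi ξ).trans
    (mul_le_mul_of_nonneg_right hC (quad_nonneg (hW.posDef e x hx).posSemidef ξ))
  constructor
  · refine posSemidef_of_quad (hWH.sub hH) fun ξ => ?_
    rw [quad_sub, quad_csmul, Complex.sub_re, Complex.re_ofReal_mul]
    linarith [(abs_le.1 (h3 ξ)).2]
  · refine posSemidef_of_quad (hWH.add hH) fun ξ => ?_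
    rw [quad_add, quad_csmul, Complex.add_re, Complex.re_ofReal_mul]
    linarith [(abs_le.1 (h3 ξ)).1]

end

end Vale.Agent.P284.H470.D
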