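import Vale.Agent.P284.H470.D.Loc
import Vale.Agent.P284.H661.D.Spec

/-!
# P284 (helper470), project D: module E1
-/

open scoped Manifold ContDiff Topology ComplexOrder ComplexConjugate
open Filter Set MeasureTheory

noncomputable section

namespace Vale.Agent.P284.H470.D

open Vale.Agent.P272.K Vale.Agent.P272.K.INT Vale.Agent.P284.H248 Vale.Agent.P284.H206.K
  Vale.Agent.P284.H661.D Vale.Agent.P284.H224.D

theorem csmul_herm {m : ℕ} {M : Matrix (Fin m) (Fin m) ℂ} (hM : M.IsHermitian) (c : ℝ) :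
    ((c : ℂ) • M).IsHermitian := by
  ext a b
  rw [Matrix.conjTranspose_apply, Matrix.smul_apply, Matrix.smul_apply, smul_eq_mul, smul_eq_mul,
    star_mul', hM.apply a b]
  congr 1
  exact Complex.conj_ofReal c

section
variable {n R k : ℕ} {X : Type} [TopologicalSpace X] [ChartedSpace (Cm n) X]
  {L : LineBundle n X} (P : LPart L) (s : Fin (R + 1) → Sec L k)
  {ε : ℝ} {F : Cm R → Cm (R + 1)}

/-! ### smoothness -/

theorem nS_smooth : SmoothFn (n := n) (nS P s) := by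
  intro e x hx
  unfold nS
  exact ContDiffAt.sum fun a _ => GG_smooth P (s a) e x hx

theorem fst_cd {E : Type} [NormedAddCommGroup E] [NormedSpace ℝ E] {f : Cm n → E} {y : Cm n}
    (z : Cm R) (h : ContDiffAt ℝ ∞ f y) :
    ContDiffAt ℝ ∞ (fun q : Cm n × Cm R => f q.1) (y, z) :=
  ContDiffAt.comp (y, z) (g := f) (f := Prod.fst) h contDiffAt_fst

theorem psi_smooth (hε : 0 < ε) : SmoothFn (n := n) (psiE ε P s) := by
  intro e x hx
  have h1 := nS_smooth P s e x hx
  refine ContDiffAt.log (f := fun y => nS P s (e.symm y) + ε ^ 2) (h1.add contDiffAt_const) ?_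
  exact (epsi_pos P s hε _).ne'

theorem smooth_F (hF : ∀ z, AnalyticAt ℂ F z) (z : Cm R) : ContDiffAt ℝ ∞ F z :=
  ((hF z).contDiffAt.restrict_scalars ℝ).of_le (by exact le_top)

theorem lam_smooth (hF : ∀ z, AnalyticAt ℂ F z) (hε : 0 < ε) :
    JSm (n := n) (lamE ε P s F) := by
  intro e x hx z
  obtain ⟨i, hi⟩ := L.cover x
  have hFz : ContDiffAt ℝ ∞ (fun q : Cm n × Cm R => F q.2) (e x, z) :=
    (smooth_F hF z).comp (e x, z) contDiffAt_snd
  have hFa : ∀ a, ContDiffAt ℝ ∞ (fun q : Cm n × Cm R => F q.2 a) (e x, z) := fun a =>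
    contDiffAt_pi.1 hFz a
  have hsa : ∀ a, ContDiffAt ℝ ∞ (fun q : Cm n × Cm R => (s a).f i (e.symm q.1)) (e x, z) := by
    intro a
    have h1 : ContDiffAt ℝ ∞ (fun y => (s a).f i (e.symm y)) (e x) :=
      (((s a).holo i e x hx hi).restrict_scalars ℝ).of_le (by exact le_top)
    exact fst_cd z h1
  have hH : ContDiffAt ℝ ∞ (fun q : Cm n × Cm R => HH P i (e.symm q.1) ^ k) (e x, z) :=
    (fst_cd z (HH_smooth P hx hi)).pow k
  have hS : ContDiffAt ℝ ∞ (fun q : Cm n × Cm R => nS P s (e.symm q.1)) (e x, z) :=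
    fst_cd z (nS_smooth P s e x hx)
  have hN : ContDiffAt ℝ ∞ (fun q : Cm n × Cm R => nF (F q.2)) (e x, z) := by
    unfold nF
    exact ContDiffAt.sum fun a _ => (hFa a).norm_sq ℝ
  have hW : ContDiffAt ℝ ∞ (fun q : Cm n × Cm R => nW P s (F q.2) (e.symm q.1)) (e x, z) := by
    have h1 : (fun q : Cm n × Cm R => nW P s (F q.2) (e.symm q.1)) =ᶠ[𝓝 (e x, z)]
        fun q => (∑ a, ∑ b, ‖(s a).f i (e.symm q.1) * F q.2 b - (s b).f i (e.symm q.1) * F q.2 a‖ ^ 2)
          / 2 / HH P i (e.symm q.1) ^ k := by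
      have h2 := (continuous_fst.continuousAt (x := (e x, z))).eventually (U_evn hx hi)
      filter_upwards [h2] with q hq
      exact nW_eq P s hq.2.2 _
    refine ContDiffAt.congr_of_eventuallyEq ?_ h1
    refine ((ContDiffAt.sum fun a _ => ContDiffAt.sum fun b _ =>
      (((hsa a).mul (hFa b)).sub ((hsa b).mul (hFa a))).norm_sq ℝ).div_const 2).div hH ?_
    simp only
    rw [hx.left_inv]
    exact (pow_pos (HH_pos P hi) k).ne'
  refine ContDiffAt.log (f := fun q : Cm n × Cm R => elam ε P s F (e.symm q.1) q.2) ?_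
    (elam_pos P s hε _ _).ne'
  unfold elam
  exact (hW.add ((contDiffAt_const.mul hS).mul hN)).add
    (contDiffAt_const.mul (contDiffAt_const.add hN))

/-! ### the bounds of the Hessians -/

variable {C : ℝ} {W : Chart n X → Cm n → Matrix (Fin n) (Fin n) ℂ}

/-- the family of `lam` on `X × ℂ` is holomorphic -/
theorem TT_holo (hF : ∀ z, AnalyticAt ℂ F z) {i : L.ι} {e : Chart n X} {x : X} (hx : At e x)
    (hi : x ∈ L.U i) (z : Cm R) (j : Fin R) (α : KI R) :
    ContDiffAt ℂ ω (fun ζ : Cm (n + 1) => TT ε (F (z + Pi.single j (ζ (Fin.last n))))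
      (fun β => gS s ε i e β (Fin.init ζ)) α) (Fin.snoc (e x) 0) := by
  have hg : ∀ β, ContDiffAt ℂ ω (fun ζ : Cm (n + 1) => gS s ε i e β (Fin.init ζ))
      (Fin.snoc (e x) 0) := by
    intro β
    have h1 := gS_holo s (ε := ε) hx hi β
    have h2 : (ini n) (Fin.snoc (e x) 0) = e x := by rw [ini_apply, Fin.init_snoc]
    rw [← h2] at h1
    exact h1.comp (Fin.snoc (e x) 0) (ini n).contDiff.contDiffAt
  have hv : ∀ b, ContDiffAt ℂ ω (fun ζ : Cm (n + 1) => F (z + Pi.single j (ζ (Fin.last n))) b)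
      (Fin.snoc (e x) 0) := by
    intro b
    have h1 : ContDiffAt ℂ ω (fun ζ : Cm (n + 1) => z + (Pi.single j (ζ (Fin.last n)) : Cm R))
        (Fin.snoc (e x) 0) := by
      have h2 : ContDiff ℂ ω (fun ζ : Cm (n + 1) => (Pi.single j (ζ (Fin.last n)) : Cm R)) :=
        (ContinuousLinearMap.single ℂ (fun _ : Fin R => ℂ) j).contDiff.comp
          (contDiff_apply ℂ ℂ (Fin.last n))
      exact contDiffAt_const.add h2.contDiffAt
    have h3 : ContDiffAt ℂ ω F (z + (Pi.single j ((Fin.snoc (e x) 0 : Cm (n + 1)) (Fin.last n)) :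
        Cm R)) := (hF _).contDiffAt
    have h4 : ContDiffAt ℂ ω (fun ζ : Cm (n + 1) => F (z + (Pi.single j (ζ (Fin.last n)) : Cm R)))
        (Fin.snoc (e x) 0) := ContDiffAt.comp (Fin.snoc (e x) 0 : Cm (n + 1)) (g := F) h3 h1
    exact contDiffAt_pi.1 h4 b
  rcases α with ⟨a, b⟩ | ⟨a, b⟩ | _ | b
  · exact contDiffAt_const.mul (((hg (some a)).mul (hv b)).sub ((hg (some b)).mul (hv a)))
  · exact contDiffAt_const.mul ((hg (some a)).mul (hv b))
  · exact hg none
  · exact (hg none).mul (hv b)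

/-- **the form `C W + i∂∂̄ lam` on `X × ℂ` is semipositive** -/
theorem KJ_psd (hF : ∀ z, AnalyticAt ℂ F z) (hε : 0 < ε) (hW : IsKahler W) {B : ℝ} (hBC : B ≤ C)
    {e : Chart n X} {x : X} (hx : At e x)
    (hB : ∀ i, x ∈ L.U i → ∀ ξ : Cm n,
      |(quad (cHess (th P k i e) (e x)) ξ).re| ≤ B * (quad (W e (e x)) ξ).re)
    (z : Cm R) (j : Fin R) : (KJ C W (lamE ε P s F) e (e x) z j).PosSemidef := by
  have hJ := lam_smooth P s hF hε
  obtain ⟨i, hi⟩ := L.cover x
  refine posSemidef_of_quad ((csmul_herm (hatM_herm (hW.posDef e x hx).isHermitian) C).add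
    (HB_herm hJ hx)) fun ξ => ?_
  have ht : ContDiffAt ℝ ∞ (th P k i e) (e x) := th_smooth P hx hi
  have h0 : 0 < fam (fun α ζ => TT ε (F (z + Pi.single j (ζ (Fin.last n))))
      (fun β => gS s ε i e β (Fin.init ζ)) α)
      (fun α ζ => wK α * th P k i e (Fin.init ζ)) (Fin.snoc (e x) 0) := by
    have h2 : e.symm (Fin.init (Fin.snoc (e x) 0 : Cm (n + 1)) : Cm n) ∈ L.U i := by
      rw [Fin.init_snoc, hx.left_inv]
      exact hi
    have h4 := sq2_TT_gS P s hε.le h2 (F (z + Pi.single j ((Fin.snoc (e x) 0 : Cm (n + 1))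
      (Fin.last n))))
    rw [← VV_TT, ← fam_eq] at h4
    have h5 := elam_pos P s (F := F) hε (e.symm (Fin.init (Fin.snoc (e x) 0 : Cm (n + 1)) : Cm n))
      (z + Pi.single j ((Fin.snoc (e x) 0 : Cm (n + 1)) (Fin.last n)))
    unfold elam at h5
    rw [← h4] at h5
    exact h5
  have hq : |(quad (cHess (fun ζ : Cm (n + 1) => th P k i e (Fin.init ζ)) (Fin.snoc (e x) 0)) ξ).re|
      ≤ C * (quad (W e (e x)) (Fin.init ξ)).re := by
    rw [cHess_init ht, quad_hatM]
    exact (hB i hi _).trans (mul_le_mul_of_nonneg_right hBC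
      (quad_nonneg (hW.posDef e x hx).posSemidef _))
  have h1 := quad_log_bd (w := wK) (t := fun ζ : Cm (n + 1) => th P k i e (Fin.init ζ)) (ξ := ξ)
    (fun α => TT_holo s (ε := ε) hF hx hi z j α) ((init_cd 0 ht).of_le two_le_top) wK_nonneg wK_le
    h0 hq
  have h2 : HB (lamE ε P s F) e z j (e x) = cHess (fun ζ => Real.log (fam
      (fun α ζ => TT ε (F (z + Pi.single j (ζ (Fin.last n)))) (fun β => gS s ε i e β (Fin.init ζ)) α)
      (fun α ζ => wK α * th P k i e (Fin.init ζ)) ζ)) (Fin.snoc (e x) 0) :=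
    C2.cHess_congr (pj_ev_fam P s hε.le hx hi z j)
  unfold KJ
  rw [quad_add, quad_csmul, quad_hatM, Complex.add_re, Complex.re_ofReal_mul, h2]
  have h3 := (abs_le.1 h1).1
  have h4 := gm_nonneg (VV (fun (α : KI R) (ζ : Cm (n + 1)) => TT ε (F (z + Pi.single j (ζ (Fin.last n))))
      (fun β => gS s ε i e β (Fin.init ζ)) α) (fun α ζ => wK α * th P k i e (Fin.init ζ))
      (Fin.snoc (e x) 0)) (WW (fun (α : KI R) (ζ : Cm (n + 1)) => TT ε (F (z + Pi.single j (ζ (Fin.last n))))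
      (fun β => gS s ε i e β (Fin.init ζ)) α) (fun α ζ => wK α * th P k i e (Fin.init ζ))
      (Fin.snoc (e x) 0) ξ)
  have h5 := div_nonneg h4 (sq_nonneg (sq2 (VV (fun (α : KI R) (ζ : Cm (n + 1)) =>
      TT ε (F (z + Pi.single j (ζ (Fin.last n))))
      (fun β => gS s ε i e β (Fin.init ζ)) α) (fun α ζ => wK α * th P k i e (Fin.init ζ))
      (Fin.snoc (e x) 0))))
  linarith

/-- the two bounds on `X`: `g = |V ∧ W|² / |V|⁴` -/
theorem main_bd (hε : 0 < ε) (hε1 : ε ≤ 1) {e : Chart n X} {x : X} (hx : At e x) {ξ : Cm n} {A : ℝ}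
    (hA : ∀ i, x ∈ L.U i → |(quad (cHess (th P k i e) (e x)) ξ).re| ≤ A) (z : Cm R) :
    ∃ g g' : ℝ, 0 ≤ g ∧ 0 ≤ g' ∧
      g' ≤ 2 * (1 + nF (F z)) * Real.exp (-(lamE ε P s F x z - psiE ε P s x)) * g ∧
      |(quad (cHess (fun y => psiE ε P s (e.symm y)) (e x)) ξ).re - g| ≤ A ∧
      |(quad (cHess (fun y => lamE ε P s F (e.symm y) z) (e x)) ξ).re - g'| ≤ A := by
  obtain ⟨i, hi⟩ := L.cover x
  have hix : e.symm (e x) ∈ L.U i := by rw [hx.left_inv]; exact hi
  have ht : ContDiffAt ℝ 2 (th P k i e) (e x) := (th_smooth P hx hi).of_le two_le_top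
  have hg := gS_holo s (ε := ε) hx hi
  set V := VV (gS s ε i e) (fun α y => wP α * th P k i e y) (e x) with hV
  set U := WW (gS s ε i e) (fun α y => wP α * th P k i e y) (e x) ξ with hU
  have hS : sq2 V = nS P s x + ε ^ 2 := by
    rw [hV, sq2_VV_gS P s hix, hx.left_inv]
  have hS' : sq2 (TT ε (F z) V) = elam ε P s F x z := by
    rw [hV, sq2_TT_gS P s hε.le hix, hx.left_inv]
    rfl
  have hSp : 0 < sq2 V := by rw [hS]; exact epsi_pos P s hε x
  have hSp' : 0 < sq2 (TT ε (F z) V) := by rw [hS']; exact elam_pos P s hε x z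
  refine ⟨gm V U / sq2 V ^ 2, gm (TT ε (F z) V) (TT ε (F z) U) / sq2 (TT ε (F z) V) ^ 2,
    div_nonneg (gm_nonneg _ _) (sq_nonneg _), div_nonneg (gm_nonneg _ _) (sq_nonneg _), ?_, ?_, ?_⟩
  · refine (gm_map V U (TT_lin ε (F z)) (sq2_TT_le hε.le hε1 (F z)) hSp hSp').trans (le_of_eq ?_)
    rw [exp_v P s hε, ← hS, ← hS']
    ring
  · rw [C2.cHess_congr (psi_ev P s hx hi)]
    refine quad_log_bd hg ht wP_nonneg wP_le ?_ (hA i hi)
    rw [fam_eq]
    exact hSp
  · rw [C2.cHess_congr (lam_ev P s hε.le hx hi z)]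
    have h1 := quad_log_bd (ξ := ξ) (g := fun (α : KI R) y => TT ε (F z) (fun β => gS s ε i e β y) α)
      (w := wK) (t := th P k i e) (q := e x) (B := A) ?_ ht wK_nonneg wK_le ?_ (hA i hi)
    · rw [VV_TT, WW_TT fun α => (hg α).differentiableAt (by simp)] at h1
      exact h1
    · intro α
      rcases α with ⟨a, b⟩ | ⟨a, b⟩ | _ | b
      · exact contDiffAt_const.mul (((hg (some a)).mul contDiffAt_const).sub
          ((hg (some b)).mul contDiffAt_const))
      · exact contDiffAt_const.mul ((hg (some a)).mul contDiffAt_const)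
      · exact hg none
      · exact (hg none).mul contDiffAt_const
    · rw [fam_eq, VV_TT]
      exact hSp'

/-- the quadratic form of `MT` -/
theorem quad_MT (hF : ∀ z, AnalyticAt ℂ F z) (hε : 0 < ε) {e : Chart n X} {x : X} (hx : At e x)
    (z : Cm R) (t : ℝ) (ξ : Cm n) :
    (quad (MT C W (psiE ε P s) (lamE ε P s F) t e (e x) z) ξ).re =
      C * (quad (W e (e x)) ξ).re +
        (1 - t) * (quad (cHess (fun y => psiE ε P s (e.symm y)) (e x)) ξ).re +
        t * (quad (cHess (fun y => lamE ε P s F (e.symm y) z) (e x)) ξ).re := by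
  have hp : ContDiffAt ℝ 2 (fun y => psiE ε P s (e.symm y)) (e x) :=
    (psi_smooth P s hε e x hx).of_le two_le_top
  have hl : ContDiffAt ℝ 2 (fun y => lamE ε P s F (e.symm y) z) (e x) :=
    ((lam_smooth P s hF hε).left hx z).of_le two_le_top
  unfold MT
  rw [C2.cHess_add hp (contDiffAt_const.mul (hl.sub hp)), C2.cHess_const_mul _ (hl.sub hp),
    C2.cHess_sub hl hp, quad_add, quad_csmul, quad_add, quad_csmul, quad_sub, Complex.add_re,
    Complex.add_re, Complex.re_ofReal_mul, Complex.re_ofReal_mul, Complex.sub_re]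
  ring

theorem MT_herm (hF : ∀ z, AnalyticAt ℂ F z) (hε : 0 < ε) (hW : IsKahler W) {e : Chart n X} {x : X}
    (hx : At e x) (z : Cm R) (t : ℝ) :
    (MT C W (psiE ε P s) (lamE ε P s F) t e (e x) z).IsHermitian := by
  have hp : ContDiffAt ℝ 2 (fun y => psiE ε P s (e.symm y)) (e x) :=
    (psi_smooth P s hε e x hx).of_le two_le_top
  have hl : ContDiffAt ℝ 2 (fun y => lamE ε P s F (e.symm y) z) (e x) :=
    ((lam_smooth P s hF hε).left hx z).of_le two_le_top
  exact (csmul_herm (hW.posDef e x hx).isHermitian C).add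
    (C2.cHess_isHermitian (hp.add (contDiffAt_const.mul (hl.sub hp))))

end

/-- **module E1** -/
theorem e1 : E1Stmt := by
  intro n R k X _ _ _ _ _ W hW L P s
  obtain ⟨B, hB, hcrv⟩ := exists_crv P hW k
  refine ⟨2 * B, by positivity, fun C hC F hF ε hε hε1 => ?_⟩
  have hBC : B ≤ C := by linarith
  have hC0 : 0 ≤ C := by linarith
  have hw : ∀ (e : Chart n X) x, At e x → ∀ ξ : Cm n, 0 ≤ (quad (W e (e x)) ξ).re :=
    fun e x hx ξ => quad_nonneg (hW.posDef e x hx).posSemidef ξ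
  have hA : ∀ (e : Chart n X) x, At e x → ∀ ξ : Cm n, ∀ i, x ∈ L.U i →
      |(quad (cHess (th P k i e) (e x)) ξ).re| ≤ C / 2 * (quad (W e (e x)) ξ).re :=
    fun e x hx ξ i hi => (hcrv e x hx i hi ξ).trans
      (mul_le_mul_of_nonneg_right (by linarith) (hw e x hx ξ))
  refine ⟨lam_smooth P s hF hε, psi_smooth P s hε, fun e x hx z j => ?_, fun e x hx z t ht => ?_,
    v_le P s hε hε1, fun e x hx z t ht => ?_⟩
  · exact KJ_psd P s hF hε hW hBC hx (fun i hi ξ => hcrv e x hx i hi ξ) z j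
  · refine posSemidef_of_quad (MT_herm P s hF hε hW hx z t) fun ξ => ?_
    obtain ⟨g, g', hg, hg', -, h1, h2⟩ := main_bd P s (F := F) hε hε1 hx (hA e x hx ξ) z
    rw [quad_MT P s hF hε hx z t ξ]
    have h3 := hw e x hx ξ
    have h4 := (abs_le.1 h1).1
    have h5 := (abs_le.1 h2).1
    have h6 : 0 ≤ C / 2 * (quad (W e (e x)) ξ).re := by positivity
    have ht0 : 0 ≤ t := ht.1
    have ht1 : 0 ≤ 1 - t := by linarith [ht.2]
    have h7 : -(C / 2 * (quad (W e (e x)) ξ).re) ≤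
        (quad (cHess (fun y => psiE ε P s (e.symm y)) (e x)) ξ).re := by linarith
    have h8 : -(C / 2 * (quad (W e (e x)) ξ).re) ≤
        (quad (cHess (fun y => lamE ε P s F (e.symm y) z) (e x)) ξ).re := by linarith
    have h9 := mul_le_mul_of_nonneg_left h7 ht1
    have h10 := mul_le_mul_of_nonneg_left h8 ht0
    nlinarith
  · set ρ : ℝ := 2 * (1 + nF (F z)) * Real.exp (-(lamE ε P s F x z - psiE ε P s x)) with hρ
    refine posSemidef_of_quad ((csmul_herm (MT_herm P s hF hε hW hx z 0) _).sub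
      (MT_herm P s hF hε hW hx z t)) fun ξ => ?_
    obtain ⟨g, g', hg, hg', hgg, h1, h2⟩ := main_bd P s (F := F) hε hε1 hx (hA e x hx ξ) z
    rw [← hρ] at hgg
    have hρ1 : 1 ≤ ρ := by
      rw [hρ, exp_v P s hε, ← mul_div_assoc, one_le_div (elam_pos P s hε x z)]
      exact elam_le P s hε hε1 x z
    rw [quad_sub, quad_csmul, Complex.sub_re, Complex.re_ofReal_mul, quad_MT P s hF hε hx z t ξ,
      quad_MT P s hF hε hx z 0 ξ]
    set w₀ : ℝ := (quad (W e (e x)) ξ).re with hw₀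
    set p : ℝ := (quad (cHess (fun y => psiE ε P s (e.symm y)) (e x)) ξ).re with hp
    set l : ℝ := (quad (cHess (fun y => lamE ε P s F (e.symm y) z) (e x)) ξ).re with hl
    have h3 : 0 ≤ w₀ := hw e x hx ξ
    have h6 : 0 ≤ C / 2 * w₀ := by positivity
    have ht0 : 0 ≤ t := ht.1
    have ht1 : 0 ≤ 1 - t := by linarith [ht.2]
    have a1 := (abs_le.1 h1).1
    have a2 := (abs_le.1 h1).2
    have a3 := (abs_le.1 h2).2
    -- `MT(t) ≤ 3/2 C w₀ + ρ g`
    have b1 : (1 - t) * p ≤ (1 - t) * (ρ * g + C / 2 * w₀) := by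
      refine mul_le_mul_of_nonneg_left ?_ ht1
      have : 1 * g ≤ ρ * g := mul_le_mul_of_nonneg_right hρ1 hg
      linarith
    have b2 : t * l ≤ t * (ρ * g + C / 2 * w₀) := mul_le_mul_of_nonneg_left (by linarith) ht0
    have b3 : C * w₀ + (1 - t) * p + t * l ≤ C * w₀ + (ρ * g + C / 2 * w₀) := by
      have : (1 - t) * (ρ * g + C / 2 * w₀) + t * (ρ * g + C / 2 * w₀) =
          ρ * g + C / 2 * w₀ := by ring
      linarith
    -- `MT(0) ≥ 1/2 C w₀ + g`
    have b4 : C / 2 * w₀ + g ≤ C * w₀ + (1 - 0) * p + 0 * l := by linarith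
    have b5 : 4 * ρ * (C / 2 * w₀ + g) ≤ 4 * ρ * (C * w₀ + (1 - 0) * p + 0 * l) :=
      mul_le_mul_of_nonneg_left b4 (by positivity)
    have b6 : C * w₀ + (ρ * g + C / 2 * w₀) ≤ 4 * ρ * (C / 2 * w₀ + g) := by
      have c1 : 1 * (C / 2 * w₀) ≤ ρ * (C / 2 * w₀) := mul_le_mul_of_nonneg_right hρ1 h6
      have c2 : 0 ≤ ρ * g := by positivity
      nlinarith
    have b7 : 4 * ρ = 4 * (2 * (1 + nF (F z)) *
        Real.exp (-(lamE ε P s F x z - psiE ε P s x))) := by rw [hρ]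
    linarith

end Vale.Agent.P284.H470.D
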