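import Vale.Agent.P284.H470.D.Alg

/-!
# P284 (helper470), project D, module E1: the linear map `(σ, c) ↦ (σ ∧ v, √ε σ ⊗ v, c, c v)`
-/

open scoped Manifold ContDiff Topology ComplexOrder ComplexConjugate
open Filter Set MeasureTheory

noncomputable section

namespace Vale.Agent.P284.H470.D

open Vale.Agent.P272.K Vale.Agent.P272.K.INT Vale.Agent.P284.H248 Vale.Agent.P284.H206.K
  Vale.Agent.P284.H661.D Vale.Agent.P284.H224.D

/-! ### families with the weights `w_α t` -/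

section
variable {ι : Type} [Fintype ι] {m : ℕ} {g : ι → Cm m → ℂ} {w : ι → ℝ} {t : Cm m → ℝ} {q ξ : Cm m}

theorem quad_log_bd (hg : ∀ α, ContDiffAt ℂ ω (g α) q) (ht : ContDiffAt ℝ 2 t q)
    (hw0 : ∀ α, 0 ≤ w α) (hw1 : ∀ α, w α ≤ 1) (h0 : 0 < fam g (fun α y => w α * t y) q) {B : ℝ}
    (hB : |(quad (cHess t q) ξ).re| ≤ B) :
    |(quad (cHess (fun y => Real.log (fam g (fun α y => w α * t y) y)) q) ξ).re -
      gm (VV g (fun α y => w α * t y) q) (WW g (fun α y => w α * t y) q ξ) /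
        sq2 (VV g (fun α y => w α * t y) q) ^ 2| ≤ B := by
  set θ : ι → Cm m → ℝ := fun α y => w α * t y with hθ
  have hθc : ∀ α, ContDiffAt ℝ 2 (θ α) q := fun α => contDiffAt_const.mul ht
  rw [quad_log hg hθc h0 ξ, ← fam_eq]
  have h1 : ∀ α, (quad (cHess (θ α) q) ξ).re = w α * (quad (cHess t q) ξ).re := by
    intro α
    rw [hθ]
    simp only
    rw [C2.cHess_const_mul _ ht, quad_csmul, Complex.re_ofReal_mul]
  simp only [h1]
  have h2 : ∑ α, ‖VV g θ q α‖ ^ 2 * (w α * (quad (cHess t q) ξ).re) =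
      (∑ α, ‖VV g θ q α‖ ^ 2 * w α) * (quad (cHess t q) ξ).re := by
    rw [Finset.sum_mul]
    exact Finset.sum_congr rfl fun α _ => by ring
  rw [h2]
  have h3 : 0 ≤ ∑ α, ‖VV g θ q α‖ ^ 2 * w α :=
    Finset.sum_nonneg fun α _ => mul_nonneg (by positivity) (hw0 α)
  have h4 : ∑ α, ‖VV g θ q α‖ ^ 2 * w α ≤ fam g θ q := by
    rw [fam_eq]
    exact Finset.sum_le_sum fun α _ => mul_le_of_le_one_right (by positivity) (hw1 α)
  have h5 : (gm (VV g θ q) (WW g θ q ξ) / fam g θ q ^ 2 -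
      (∑ α, ‖VV g θ q α‖ ^ 2 * w α) * (quad (cHess t q) ξ).re / fam g θ q) -
      gm (VV g θ q) (WW g θ q ξ) / fam g θ q ^ 2 =
      -((∑ α, ‖VV g θ q α‖ ^ 2 * w α) / fam g θ q * (quad (cHess t q) ξ).re) := by ring
  rw [h5, abs_neg, abs_mul, abs_of_nonneg (div_nonneg h3 h0.le)]
  have h6 : (∑ α, ‖VV g θ q α‖ ^ 2 * w α) / fam g θ q ≤ 1 := (div_le_one h0).2 h4
  calc (∑ α, ‖VV g θ q α‖ ^ 2 * w α) / fam g θ q * |(quad (cHess t q) ξ).re| ≤
      1 * |(quad (cHess t q) ξ).re| := mul_le_mul_of_nonneg_right h6 (abs_nonneg _)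
    _ ≤ B := by rw [one_mul]; exact hB

end

/-! ### the linear map -/

/-- indices: `s ∧ F`, `√ε s ⊗ F`, `ε`, `ε F` -/
abbrev KI (R : ℕ) : Type :=
  (Fin (R + 1) × Fin (R + 1)) ⊕ ((Fin (R + 1) × Fin (R + 1)) ⊕ Option (Fin (R + 1)))

/-- the linear map -/
def TT {R : ℕ} (ε : ℝ) (v : Cm (R + 1)) (U : Option (Fin (R + 1)) → ℂ) : KI R → ℂ
  | .inl (a, b) => ((Real.sqrt 2)⁻¹ : ℝ) * (U (some a) * v b - U (some b) * v a)
  | .inr (.inl (a, b)) => (Real.sqrt ε : ℝ) * (U (some a) * v b)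
  | .inr (.inr none) => U none
  | .inr (.inr (some b)) => U none * v b

theorem TT_lin {R : ℕ} (ε : ℝ) (v : Cm (R + 1)) (V W : Option (Fin (R + 1)) → ℂ) (c : ℂ) :
    TT ε v (fun α => W α - c * V α) = fun β => TT ε v W β - c * TT ε v V β := by
  funext β
  rcases β with ⟨a, b⟩ | ⟨a, b⟩ | _ | b <;> simp only [TT] <;> ring

theorem sq2_opt {R : ℕ} (U : Option (Fin (R + 1)) → ℂ) :
    sq2 U = ‖U none‖ ^ 2 + nF fun a => U (some a) := by
  unfold sq2 nF
  rw [Fintype.sum_option]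

theorem sq2_TT {R : ℕ} {ε : ℝ} (hε : 0 ≤ ε) (v : Cm (R + 1)) (U : Option (Fin (R + 1)) → ℂ) :
    sq2 (TT ε v U) = wq (fun a => U (some a)) v + ε * (nF fun a => U (some a)) * nF v +
      ‖U none‖ ^ 2 * (1 + nF v) := by
  unfold sq2
  rw [Fintype.sum_sum_type, Fintype.sum_sum_type, Fintype.sum_prod_type, Fintype.sum_prod_type,
    Fintype.sum_option]
  simp only [TT, norm_mul, mul_pow, Complex.norm_real, Real.norm_eq_abs, sq_abs]
  have h2 : ((Real.sqrt 2)⁻¹ : ℝ) ^ 2 = 1 / 2 := by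
    rw [inv_pow, Real.sq_sqrt (by norm_num)]
    norm_num
  rw [h2, Real.sq_sqrt hε]
  have h3 : ∑ a, ∑ b, 1 / 2 * ‖U (some a) * v b - U (some b) * v a‖ ^ 2 =
      wq (fun a => U (some a)) v := by
    unfold wq
    rw [Finset.sum_div]
    refine Finset.sum_congr rfl fun a _ => ?_
    rw [Finset.sum_div]
    exact Finset.sum_congr rfl fun b _ => by ring
  have h4 : ∑ a : Fin (R + 1), ∑ b : Fin (R + 1), ε * (‖U (some a)‖ ^ 2 * ‖v b‖ ^ 2) =
      ε * (nF fun a => U (some a)) * nF v := by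
    unfold nF
    rw [mul_assoc, Finset.sum_mul_sum, Finset.mul_sum]
    exact Finset.sum_congr rfl fun a _ => (Finset.mul_sum _ _ _).symm
  have h5 : ∑ b : Fin (R + 1), ‖U none‖ ^ 2 * ‖v b‖ ^ 2 = ‖U none‖ ^ 2 * nF v := by
    unfold nF
    rw [Finset.mul_sum]
  rw [h3, h4, h5]
  ring

theorem sq2_TT_le {R : ℕ} {ε : ℝ} (hε : 0 ≤ ε) (hε1 : ε ≤ 1) (v : Cm (R + 1))
    (U : Option (Fin (R + 1)) → ℂ) : sq2 (TT ε v U) ≤ 2 * (1 + nF v) * sq2 U := by
  rw [sq2_TT hε, sq2_opt]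
  have h1 := wq_le (fun a => U (some a)) v
  have h2 := nF_nonneg fun a => U (some a)
  have h3 := nF_nonneg v
  have h4 : ε * ((nF fun a => U (some a)) * nF v) ≤ 1 * ((nF fun a => U (some a)) * nF v) :=
    mul_le_mul_of_nonneg_right hε1 (mul_nonneg h2 h3)
  have h5 : 0 ≤ ‖U none‖ ^ 2 * (1 + nF v) := by positivity
  nlinarith

/-- the weights -/
def wP {R : ℕ} : Option (Fin (R + 1)) → ℝ
  | none => 0
  | some _ => 1

/-- the weights -/
def wK {R : ℕ} : KI R → ℝ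
  | .inl _ => 1
  | .inr (.inl _) => 1
  | .inr (.inr _) => 0

theorem wP_nonneg {R : ℕ} (α : Option (Fin (R + 1))) : 0 ≤ wP α := by
  rcases α with _ | a <;> simp [wP]

theorem wP_le {R : ℕ} (α : Option (Fin (R + 1))) : wP α ≤ 1 := by
  rcases α with _ | a <;> simp [wP]

theorem wK_nonneg {R : ℕ} (α : KI R) : 0 ≤ wK α := by
  rcases α with _ | _ | _ <;> simp [wK]

theorem wK_le {R : ℕ} (α : KI R) : wK α ≤ 1 := by
  rcases α with _ | _ | _ <;> simp [wK]

/-! ### covariant derivatives of the image -/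

section
variable {R m : ℕ} {g : Option (Fin (R + 1)) → Cm m → ℂ} {t : Cm m → ℝ} {q : Cm m}

theorem VV_TT (ε : ℝ) (v : Cm (R + 1)) :
    VV (fun α y => TT ε v (fun β => g β y) α) (fun α y => wK α * t y) q =
      TT ε v (VV g (fun α y => wP α * t y) q) := by
  funext α
  rcases α with ⟨a, b⟩ | ⟨a, b⟩ | _ | b <;> simp only [VV, TT, wK, wP] <;> ring

theorem cov_lin {g₁ g₂ : Cm m → ℂ} (h1 : DifferentiableAt ℂ g₁ q) (h2 : DifferentiableAt ℂ g₂ q)
    (a b : ℂ) (θ : Cm m → ℝ) (j : Fin m) :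
    cov (fun y => a * g₁ y + b * g₂ y) θ j q = a * cov g₁ θ j q + b * cov g₂ θ j q := by
  have h1' : DifferentiableAt ℝ g₁ q := h1.restrictScalars ℝ
  have h2' : DifferentiableAt ℝ g₂ q := h2.restrictScalars ℝ
  have h3 : DifferentiableAt ℝ (fun y => a * g₁ y) q := (differentiableAt_const a).mul h1'
  have h4 : DifferentiableAt ℝ (fun y => b * g₂ y) q := (differentiableAt_const b).mul h2'
  unfold cov
  rw [P272.K.dz_add h3 h4, P272.K.dz_const_mul _ h1', P272.K.dz_const_mul _ h2']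
  ring

theorem cov_mul {g₁ : Cm m → ℂ} (h1 : DifferentiableAt ℂ g₁ q) (a : ℂ) (θ : Cm m → ℝ) (j : Fin m) :
    cov (fun y => a * g₁ y) θ j q = a * cov g₁ θ j q := by
  unfold cov
  rw [P272.K.dz_const_mul _ (h1.restrictScalars ℝ)]
  ring

theorem WW_TT (hg : ∀ α, DifferentiableAt ℂ (g α) q) (ε : ℝ) (v : Cm (R + 1)) (ξ : Cm m) :
    WW (fun α y => TT ε v (fun β => g β y) α) (fun α y => wK α * t y) q ξ =
      TT ε v (WW g (fun α y => wP α * t y) q ξ) := by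
  funext α
  have hs : ∀ (c : ℂ) (f : Fin m → ℂ), ∑ j, c * f j * ξ j = c * ∑ j, f j * ξ j := by
    intro c f
    rw [Finset.mul_sum]
    exact Finset.sum_congr rfl fun j _ => by ring
  rcases α with ⟨a, b⟩ | ⟨a, b⟩ | _ | b
  · simp only [WW, TT, wK, wP]
    have h1 : (fun y => (((Real.sqrt 2)⁻¹ : ℝ) : ℂ) * (g (some a) y * v b - g (some b) y * v a)) =
        fun y => ((((Real.sqrt 2)⁻¹ : ℝ) : ℂ) * v b) * g (some a) y +
          (-((((Real.sqrt 2)⁻¹ : ℝ) : ℂ) * v a)) * g (some b) y := by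
      funext y
      ring
    rw [h1]
    simp only [cov_lin (hg _) (hg _), add_mul, Finset.sum_add_distrib, hs]
    ring
  · simp only [WW, TT, wK, wP]
    have h1 : (fun y => ((Real.sqrt ε : ℝ) : ℂ) * (g (some a) y * v b)) =
        fun y => (((Real.sqrt ε : ℝ) : ℂ) * v b) * g (some a) y := by
      funext y
      ring
    rw [h1]
    simp only [cov_mul (hg _), hs]
    ring
  · simp only [WW, TT, wK, wP]
  · simp only [WW, TT, wK, wP]
    have h1 : (fun y => g none y * v b) = fun y => v b * g none y := by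
      funext y
      ring
    rw [h1]
    simp only [cov_mul (hg _), hs]
    ring

end

end Vale.Agent.P284.H470.D
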