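import Vale.Agent.P284.H470.D.Fam
import Vale.Agent.P284.H470.D.Crv

/-!
# P284 (helper470), project D, module E1: the functions in a chart and a frame
-/

open scoped Manifold ContDiff Topology ComplexOrder ComplexConjugate
open Filter Set MeasureTheory

noncomputable section

namespace Vale.Agent.P284.H470.D

open Vale.Agent.P272.K Vale.Agent.P272.K.INT Vale.Agent.P284.H248 Vale.Agent.P284.H206.K
  Vale.Agent.P284.H661.D Vale.Agent.P284.H224.D

/-! ### functions which do not depend on the last coordinate -/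

section
variable {n : ℕ}

/-- the linear map `ζ ↦ init ζ` -/
def ini (n : ℕ) : Cm (n + 1) →L[ℂ] Cm n :=
  ContinuousLinearMap.pi fun a => ContinuousLinearMap.proj a.castSucc

theorem ini_apply (ζ : Cm (n + 1)) : ini n ζ = Fin.init ζ := rfl

theorem init_tendsto (y : Cm n) (c : ℂ) :
    Tendsto (fun ζ : Cm (n + 1) => (Fin.init ζ : Cm n)) (𝓝 (Fin.snoc y c)) (𝓝 y) := by
  have h3 : Tendsto (ini n) (𝓝 (Fin.snoc y c)) (𝓝 (ini n (Fin.snoc y c))) :=
    (ini n).continuous.continuousAt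
  rwa [ini_apply, Fin.init_snoc] at h3

theorem quad_hatM (M : Matrix (Fin n) (Fin n) ℂ) (ξ : Cm (n + 1)) :
    quad (hatM M) ξ = quad M (Fin.init ξ) := by
  unfold quad
  rw [Fin.sum_univ_castSucc]
  have h1 : ∀ j : Fin (n + 1), hatM M (Fin.last n) j = 0 := by
    intro j
    refine Fin.lastCases ?_ (fun b => ?_) j
    · simp
    · simp
  simp only [h1, zero_mul, Finset.sum_const_zero, add_zero]
  refine Finset.sum_congr rfl fun a _ => ?_
  rw [Fin.sum_univ_castSucc]
  simp [Fin.init]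

theorem hatM_herm {M : Matrix (Fin n) (Fin n) ℂ} (hM : M.IsHermitian) : (hatM M).IsHermitian := by
  ext i j
  rw [Matrix.conjTranspose_apply]
  refine Fin.lastCases ?_ (fun a => ?_) i
  · refine Fin.lastCases ?_ (fun b => ?_) j
    · simp
    · simp
  · refine Fin.lastCases ?_ (fun b => ?_) j
    · simp
    · simpa using hM.apply a b

theorem init_cd {t : Cm n → ℝ} {y : Cm n} (c : ℂ) (ht : ContDiffAt ℝ ∞ t y) :
    ContDiffAt ℝ ∞ (fun ζ : Cm (n + 1) => t (Fin.init ζ)) (Fin.snoc y c) := by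
  have h1 : ContDiff ℝ ∞ (fun ζ : Cm (n + 1) => (Fin.init ζ : Cm n)) :=
    contDiff_pi.2 fun a => contDiff_apply ℝ ℂ (a.castSucc)
  have h2 : (Fin.init (Fin.snoc y c : Cm (n + 1)) : Cm n) = y := Fin.init_snoc _ _
  have h3 : ContDiffAt ℝ ∞ t (Fin.init (Fin.snoc y c : Cm (n + 1)) : Cm n) := by rw [h2]; exact ht
  exact h3.comp (Fin.snoc y c) h1.contDiffAt

theorem dzb_last_zero {t : Cm n → ℝ} {ζ : Cm (n + 1)} (ht : DifferentiableAt ℝ t (Fin.init ζ)) :
    dzb (Fin.last n) (fun ζ => ((t (Fin.init ζ) : ℝ) : ℂ)) ζ = 0 := by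
  have h1 : HasFDerivAt (fun y : Cm n => ((t y : ℝ) : ℂ))
      (fderiv ℝ (fun y : Cm n => ((t y : ℝ) : ℂ)) (Fin.init ζ)) (Fin.init ζ) :=
    (C2.differentiableAt_ofReal ht).hasFDerivAt
  have h2 : HasFDerivAt (fun ζ : Cm (n + 1) => (Fin.init ζ : Cm n))
      ((ini n).restrictScalars ℝ) ζ := ((ini n).restrictScalars ℝ).hasFDerivAt
  have h3 : HasFDerivAt (fun ζ : Cm (n + 1) => ((t (Fin.init ζ) : ℝ) : ℂ))
      ((fderiv ℝ (fun y : Cm n => ((t y : ℝ) : ℂ)) (Fin.init ζ)).comp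
        ((ini n).restrictScalars ℝ)) ζ := h1.comp ζ h2
  have h4 : ∀ c : ℂ, (ini n) (Pi.single (Fin.last n) c) = 0 := by
    intro c
    rw [ini_apply]
    funext a
    simp [Fin.init, (Fin.castSucc_lt_last a).ne]
  unfold dzb
  rw [h3.fderiv]
  simp only [ContinuousLinearMap.comp_apply, ContinuousLinearMap.coe_restrictScalars', h4, map_zero,
    mul_zero, add_zero, zero_div]

theorem cHess_init {t : Cm n → ℝ} {y : Cm n} (ht : ContDiffAt ℝ ∞ t y) :
    cHess (fun ζ : Cm (n + 1) => t (Fin.init ζ)) (Fin.snoc y 0) = hatM (cHess t y) := by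
  have hs := init_cd 0 ht
  have hev : ∀ᶠ y' in 𝓝 y, ContDiffAt ℝ 2 t y' :=
    C2.eventually_contDiffAt (m := 2) (ht.of_le two_le_top)
  have hev2 : ∀ᶠ ζ in 𝓝 (Fin.snoc y 0 : Cm (n + 1)), ContDiffAt ℝ 2 t (Fin.init ζ) :=
    (init_tendsto y 0).eventually hev
  have hcl : ∀ i : Fin (n + 1), cHess (fun ζ : Cm (n + 1) => t (Fin.init ζ)) (Fin.snoc y 0) i
      (Fin.last n) = 0 := by
    intro i
    rw [P272.K.cHess_apply]
    have h1 : dzb (Fin.last n) (fun ζ => ((t (Fin.init ζ) : ℝ) : ℂ)) =ᶠ[𝓝 (Fin.snoc y 0)]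
        fun _ => 0 := by
      filter_upwards [hev2] with ζ hζ
      exact dzb_last_zero (hζ.differentiableAt (by norm_num))
    rw [P272.K.dz_congr h1, P272.K.dz_const]
  have hH : (cHess (fun ζ : Cm (n + 1) => t (Fin.init ζ)) (Fin.snoc y 0)).IsHermitian :=
    C2.cHess_isHermitian (hs.of_le two_le_top)
  ext i j
  refine Fin.lastCases ?_ (fun b => ?_) j
  · rw [hcl]
    refine Fin.lastCases ?_ (fun a => ?_) i
    · simp
    · simp
  · refine Fin.lastCases ?_ (fun a => ?_) i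
    · rw [hatM_lc, ← hH.apply, hcl, star_zero]
    · rw [hatM_cc]
      show dz a.castSucc (dzb b.castSucc fun ζ => ((t (Fin.init ζ) : ℝ) : ℂ)) (Fin.snoc y 0) =
        dz a (dzb b fun y => ((t y : ℝ) : ℂ)) y
      rw [dz_snoc ((smooth_dzb (INT.ofReal_contDiffAt hs)).differentiableAt (by simp))]
      refine INT.dz_congr ?_
      filter_upwards [hev] with y' hy'
      have h1 : DifferentiableAt ℝ (fun ζ : Cm (n + 1) => ((t (Fin.init ζ) : ℝ) : ℂ))
          (Fin.snoc y' 0) := by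
        have h2 : DifferentiableAt ℝ t (Fin.init (Fin.snoc y' 0 : Cm (n + 1)) : Cm n) := by
          rw [show (Fin.init (Fin.snoc y' 0 : Cm (n + 1)) : Cm n) = y' from Fin.init_snoc _ _]
          exact hy'.differentiableAt (by norm_num)
        exact (C2.differentiableAt_ofReal h2).comp (Fin.snoc y' 0)
          ((ini n).restrictScalars ℝ).differentiableAt
      rw [dzb_snoc h1]
      congr 1
      funext y''
      rw [show (Fin.init (Fin.snoc y'' 0 : Cm (n + 1)) : Cm n) = y'' from Fin.init_snoc _ _]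

end

/-! ### the families -/

section
variable {n R k : ℕ} {X : Type} [TopologicalSpace X] [ChartedSpace (Cm n) X]
  {L : LineBundle n X} (P : LPart L) (s : Fin (R + 1) → Sec L k)
  {ε : ℝ} {F : Cm R → Cm (R + 1)}

/-- the family `(ε, s_0, …, s_R)` -/
def gS (s : Fin (R + 1) → Sec L k) (ε : ℝ) (i : L.ι) (e : Chart n X) :
    Option (Fin (R + 1)) → Cm n → ℂ
  | none => fun _ => (ε : ℂ)
  | some a => fun y => (s a).f i (e.symm y)

theorem gS_holo {i : L.ι} {e : Chart n X} {x : X} (hx : At e x) (hi : x ∈ L.U i) (α) :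
    ContDiffAt ℂ ω (gS s ε i e α) (e x) := by
  rcases α with _ | a
  · exact contDiffAt_const
  · exact (s a).holo i e x hx hi

theorem exp_th {i : L.ι} {e : Chart n X} {y : Cm n} (hi : e.symm y ∈ L.U i) :
    Real.exp (-th P k i e y) = (HH P i (e.symm y) ^ k)⁻¹ := by
  unfold th
  rw [Real.exp_neg, ← Real.log_pow, Real.exp_log (pow_pos (HH_pos P hi) k)]

theorem nF_real_mul {m : ℕ} (c : ℝ) (σ : Cm m) : (nF fun a => (c : ℂ) * σ a) = c ^ 2 * nF σ := by
  unfold nF
  rw [Finset.mul_sum]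
  refine Finset.sum_congr rfl fun a _ => ?_
  rw [norm_mul, mul_pow, Complex.norm_real, Real.norm_eq_abs, sq_abs]

theorem wq_real_mul {m : ℕ} (c : ℝ) (σ v : Cm m) :
    wq (fun a => (c : ℂ) * σ a) v = c ^ 2 * wq σ v := by
  unfold wq
  rw [← mul_div_assoc, Finset.mul_sum]
  congr 1
  refine Finset.sum_congr rfl fun a _ => ?_
  rw [Finset.mul_sum]
  refine Finset.sum_congr rfl fun b _ => ?_
  have : (c : ℂ) * σ a * v b - (c : ℂ) * σ b * v a = (c : ℂ) * (σ a * v b - σ b * v a) := by ring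
  rw [this, norm_mul, mul_pow, Complex.norm_real, Real.norm_eq_abs, sq_abs]

theorem half_sq (t : ℝ) : Real.exp (-t / 2) ^ 2 = Real.exp (-t) := by
  rw [sq, ← Real.exp_add]
  congr 1
  ring

theorem sq2_VV_gS {i : L.ι} {e : Chart n X} {y : Cm n} (hi : e.symm y ∈ L.U i) :
    sq2 (VV (gS s ε i e) (fun α y => wP α * th P k i e y) y) = nS P s (e.symm y) + ε ^ 2 := by
  rw [sq2_opt]
  have h1 : (fun a => VV (gS s ε i e) (fun α y => wP α * th P k i e y) y (some a)) =
      fun a => ((Real.exp (-th P k i e y / 2) : ℝ) : ℂ) * sv s i (e.symm y) a := by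
    funext a
    simp only [VV, gS, wP, one_mul, sv]
  have h2 : VV (gS s ε i e) (fun α y => wP α * th P k i e y) y none = (ε : ℂ) := by
    simp [VV, gS, wP]
  rw [h1, h2, nF_real_mul, half_sq, exp_th P hi, nS_eq P s hi, Complex.norm_real,
    Real.norm_eq_abs, sq_abs]
  ring

theorem sq2_TT_gS (hε : 0 ≤ ε) {i : L.ι} {e : Chart n X} {y : Cm n} (hi : e.symm y ∈ L.U i)
    (v : Cm (R + 1)) :
    sq2 (TT ε v (VV (gS s ε i e) (fun α y => wP α * th P k i e y) y)) =
      nW P s v (e.symm y) + ε * nS P s (e.symm y) * nF v + ε ^ 2 * (1 + nF v) := by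
  rw [sq2_TT hε]
  have h1 : (fun a => VV (gS s ε i e) (fun α y => wP α * th P k i e y) y (some a)) =
      fun a => ((Real.exp (-th P k i e y / 2) : ℝ) : ℂ) * sv s i (e.symm y) a := by
    funext a
    simp only [VV, gS, wP, one_mul, sv]
  have h2 : VV (gS s ε i e) (fun α y => wP α * th P k i e y) y none = (ε : ℂ) := by
    simp [VV, gS, wP]
  rw [h1, h2, nF_real_mul, wq_real_mul, half_sq, exp_th P hi, nS_eq P s hi, nW_eq P s hi,
    Complex.norm_real, Real.norm_eq_abs, sq_abs]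
  ring

theorem psi_ev {i : L.ι} {e : Chart n X} {x : X} (hx : At e x) (hi : x ∈ L.U i) :
    (fun y => psiE ε P s (e.symm y)) =ᶠ[𝓝 (e x)]
      fun y => Real.log (fam (gS s ε i e) (fun α y => wP α * th P k i e y) y) := by
  filter_upwards [U_evn hx hi] with y hy
  rw [fam_eq, sq2_VV_gS P s hy.2.2]
  rfl

theorem lam_ev (hε : 0 ≤ ε) {i : L.ι} {e : Chart n X} {x : X} (hx : At e x) (hi : x ∈ L.U i)
    (z : Cm R) :
    (fun y => lamE ε P s F (e.symm y) z) =ᶠ[𝓝 (e x)]
      fun y => Real.log (fam (fun α y => TT ε (F z) (fun β => gS s ε i e β y) α)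
        (fun α y => wK α * th P k i e y) y) := by
  filter_upwards [U_evn hx hi] with y hy
  rw [fam_eq, VV_TT, sq2_TT_gS P s hε hy.2.2]
  rfl

theorem pj_ev_fam (hε : 0 ≤ ε) {i : L.ι} {e : Chart n X} {x : X} (hx : At e x) (hi : x ∈ L.U i)
    (z : Cm R) (j : Fin R) :
    pj (lamE ε P s F) e z j =ᶠ[𝓝 (Fin.snoc (e x) 0 : Cm (n + 1))]
      fun ζ => Real.log (fam
        (fun α ζ => TT ε (F (z + Pi.single j (ζ (Fin.last n)))) (fun β => gS s ε i e β (Fin.init ζ)) α)
        (fun α ζ => wK α * th P k i e (Fin.init ζ)) ζ) := by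
  filter_upwards [(init_tendsto (e x) 0).eventually (U_evn hx hi)] with ζ hζ
  have h4 := sq2_TT_gS P s hε hζ.2.2 (F (z + Pi.single j (ζ (Fin.last n))))
  rw [← VV_TT, ← fam_eq] at h4
  show Real.log _ = Real.log _
  congr 1
  exact h4.symm

end

end Vale.Agent.P284.H470.D
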